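import Vale.Agent.P270L.TDefs
import Mathlib.FieldTheory.IsAlgClosed.AlgebraicClosure

/-!
# P270L, block A, the algebraic rows (definitions and statements)
-/

open Set IntermediateField
open Vale.Agent.P297 (Place PlaceOver IsFF)
open Vale.Agent.P285N.Brep (jac Fr)

noncomputable section

namespace Vale.Agent.P270L

section defs

variable (k : Type) {K : Type} [Field k] [Field K] [Algebra k K] {n : ℕ}

/-- `t` are coordinates at `P` with the dual derivations `D` -/
structure Ad (P : Place K) (t : Fin n → K) (D : Fin n → Derivation k K K) : Prop where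
  fr : Fr t D
  mem : ∀ j, t j ∈ P.ring
  pre : ∀ j, ∀ f ∈ P.ring, D j f ∈ P.ring

open Classical in
/-- the order of the form `dy` at `P` -/
def kap (y : Fin n → K) (P : Place K) : ℤ :=
  if h : ∃ q : (Fin n → K) × (Fin n → Derivation k K K), Ad k P q.1 q.2 then
    P.ord (jac h.choose.2 y) else 0

/-- the centre of `P` on the model `x` has dimension less than `n - 1` -/
def Xc (n : ℕ) {ι : Type} (x : ι → K) (P : Place K) : Prop :=
  ∀ i, (∀ j, x j / x i ∈ P.ring) → ∀ (d : ℕ) (w : Fin d → ι), d + 1 = n →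
    ∃ F : MvPolynomial (Fin d) k, F ≠ 0 ∧ P.val (MvPolynomial.aeval (fun a => x (w a) / x i) F) < 1

variable {k} in
/-- the largest value -/
def mv (U : ValuationSubring K) {σ : Type} [Fintype σ] (s : σ → K) : U.ValueGroup :=
  Finset.univ.sup fun l => U.valuation (s l)

/-- the systems define the same divisor on all models -/
def Eqv {σ σ' : Type} [Fintype σ] [Fintype σ'] (s : σ → K) (s' : σ' → K) : Prop :=
  ∀ U : ValuationSubring K, (∀ a, algebraMap k K a ∈ U) → mv U s = mv U s'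

/-- the product of two systems -/
def tp {σ σ' : Type} (s : σ → K) (s' : σ' → K) : σ × σ' → K := fun l => s l.1 * s' l.2

/-- the power of a system -/
def pw {σ : Type} (s : σ → K) (m : ℕ) : σ → K := fun l => s l ^ m

variable (K) in
/-- a degree function -/
structure Dgf : Type 1 where
  d : ∀ {σ : Type} [Fintype σ], (σ → K) → ℚ
  nn : ∀ {σ : Type} [Fintype σ] (s : σ → K), 0 ≤ d s
  mul : ∀ {σ σ' : Type} [Fintype σ] [Fintype σ'] (s : σ → K) (s' : σ' → K), s ≠ 0 → s' ≠ 0 →
    d (tp s s') = d s + d s'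
  pow : ∀ {σ : Type} [Fintype σ] (s : σ → K) (m : ℕ), s ≠ 0 → d (pw s m) = m * d s
  eqv : ∀ {σ σ' : Type} [Fintype σ] [Fintype σ'] (s : σ → K) (s' : σ' → K), Eqv k s s' →
    d s = d s'

end defs

/-- a statement for all fields over a field of characteristic zero -/
def ForZ (P : ∀ (k K : Type) [Field k] [Field K] [Algebra k K], Prop) : Prop :=
  ∀ (k K : Type) [Field k] [Field K] [Algebra k K] [CharZero k], P k K

/-- **KAP**: the chain rule, and the order of a form -/
structure KAP : Prop where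
  chain : ForZ fun k K _ _ _ => ∀ (n : ℕ) (t : Fin n → K) (D : Fin n → Derivation k K K), Fr t D →
    ∀ (E : Fin n → Derivation k K K) y, jac E y = jac E t * jac D y
  ne : ForZ fun k K _ _ _ => ∀ (n : ℕ) (t y : Fin n → K) (D δ : Fin n → Derivation k K K), Fr t D →
    Fr y δ → jac D y ≠ 0
  eq : ForZ fun k K _ _ _ => ∀ (n : ℕ) (t y : Fin n → K) (D : Fin n → Derivation k K K) P,
    Ad k P t D → kap k y P = P.ord (jac D y)

/-- **DVL**: a coordinate hyperplane is a divisorial place -/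
def DVL : Prop := ForZ fun k K _ _ _ => ∀ (n : ℕ) (t : Fin n → K) (D : Fin n → Derivation k K K) P,
  (∀ a, algebraMap k K a ∈ P.ring) → Ad k P t D → ∀ i, P.ord (t i) = 1 → Dvl k n P

/-- **JNZ**: some Jacobian of the coordinates is not zero -/
def JNZ : Prop := ForZ fun k K _ _ _ => ∀ (ι : Type) [Fintype ι] (x : ι → K) (n : ℕ) (y : Fin n → K)
  (δ : Fin n → Derivation k K K), Model k x → Fr y δ → ∀ i, ∃ e : Fin n → ι,
    jac δ (fun a => x (e a) / x i) ≠ 0

/-- **NEX**: the boundary is effective at the divisors of the model -/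
def NEX : Prop := ForZ fun k K _ _ _ => ∀ (ι : Type) [Fintype ι] (x : ι → K) (n : ℕ) (y : Fin n → K)
  (δ : Fin n → Derivation k K K) (q : ℕ) (C : Cd K), Model k x → Fr y δ → Bdy x δ q C →
  ∀ (P : Place K) (t : Fin n → K) (D : Fin n → Derivation k K K),
    (∀ a, algebraMap k K a ∈ P.ring) → Ad k P t D → ¬ Xc k n x P → q * kap k y P ≤ cf x P C

/-- **MXA**: the coefficients of products -/
structure MXA : Prop where
  mul : ∀ (K : Type) [Field K] (P : Place K) (σ σ' : Type) [Fintype σ] [Fintype σ'] (s : σ → K)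
    (s' : σ' → K), s ≠ 0 → s' ≠ 0 → mx P (tp s s') = mx P s + mx P s'
  pow : ∀ (K : Type) [Field K] (P : Place K) (σ : Type) [Fintype σ] (s : σ → K) (m : ℕ), s ≠ 0 →
    mx P (pw s m) = m * mx P s
  gen : ∀ (K : Type) [Field K] (P : Place K) (σ : Type) [Fintype σ] (s : σ → K) l, s l ≠ 0 →
    (∀ m, s m / s l ∈ P.ring) → mx P s = -P.ord (s l)
  eqv : ∀ (k K : Type) [Field k] [Field K] [Algebra k K] (P : Place K) (σ σ' : Type) [Fintype σ]
    [Fintype σ'] (s : σ → K) (s' : σ' → K), (∀ a, algebraMap k K a ∈ P.ring) → Eqv k s s' →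
    mx P s = mx P s'
  cmp : ∀ (k K : Type) [Field k] [Field K] [Algebra k K] (ι σ σ' : Type) [Fintype ι] [Nonempty ι]
    [Fintype σ] [Fintype σ'] (x : ι → K) (s : σ → K) (s' : σ' → K) (c : ℕ), (∀ i, x i ≠ 0) →
    Cmp k x s s' c → Eqv k (tp s s') (pw x c)

/-- **EXT**: the extension theorem of Chevalley -/
def EXT : Prop := ∀ (K Ω : Type) [Field K] [Field Ω] [IsAlgClosed Ω] (A : Subring K) (φ : A →+* Ω),
  ∃ (V : ValuationSubring K) (h : ∀ a ∈ A, a ∈ V) (ψ : V →+* Ω),
    (∀ a : A, ψ ⟨a, h a a.2⟩ = φ a) ∧ ∀ f : V, ψ f ≠ 0 → (f : K)⁻¹ ∈ V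

/-- **HTM**: the height in a finite extension -/
def HTM : Prop := ForK fun k L _ _ _ => IsFF k L → ∀ (L' : Type) [Field L'] [Algebra k L']
  [Algebra L L'] [IsScalarTower k L L'] [FiniteDimensional L L'], IsFF k L' ∧
    ∀ (σ : Type) [Fintype σ] (z : σ → L), ht k (up L' z) = Module.finrank L L' * ht k z

/-- **VPD**: the degree function of a place with values in the closure of a function field -/
def VPD : Prop := ForK fun k K _ _ _ => ∀ (L Ω : Type) [Field L] [Field Ω] [Algebra k L]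
  [Algebra L Ω] [Algebra k Ω] [IsScalarTower k L Ω] [Algebra.IsAlgebraic L Ω] [IsFF k L]
  (V : ValuationSubring K) (hk : ∀ a, algebraMap k K a ∈ V) (ψ : V →+* Ω),
  (∀ a, ψ ⟨_, hk a⟩ = algebraMap k Ω a) → (∀ f : V, ψ f ≠ 0 → (f : K)⁻¹ ∈ V) →
  ∃ g : Dgf k K, ∀ (σ : Type) [Fintype σ] (s : σ → K) (τ : K) (h : ∀ l, τ * s l ∈ V)
    (L' : IntermediateField L Ω) [FiniteDimensional L L'] (z : σ → L'), z ≠ 0 →
    (∀ l, (z l : Ω) = ψ ⟨_, h l⟩) → g.d s * Module.finrank L L' = ht k z

/-- **LIFT**: the degree function of a curve -/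
def LIFT : Prop := ForK fun k K _ _ _ => ∀ (ι : Type) (x : ι → K) (p : Cv k x), ∃ g : Dgf k K,
  ∀ (σ : Type) [Fintype σ] (s : σ → K), Free k x s → g.d s = p.dg s

/-- **DESC**: a system which is constant on the contracted curves comes from the model -/
def DESC : Prop := ForK fun k K _ _ _ => ∀ (ι σ : Type) [Fintype ι] [Fintype σ] (x : ι → K)
  (u : σ → K), Model k x → u ≠ 0 → (∀ g : Dgf k K, g.d x = 0 → g.d u = 0) → Free k x u

/-- **LOW**: dimension zero -/
def LOW : Prop := ∀ (k : Type) [Field k] [IsAlgClosed k] [CharZero k], FFn k 0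

end Vale.Agent.P270L
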