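import Vale.Agent.P270L.S7Pts

/-!
# P270L (S): from function fields to normal projective varieties
-/

open CategoryTheory AlgebraicGeometry TopologicalSpace Order
open scoped NNReal
open Vale.Agent.P299.G Vale.Agent.P289 Vale.Agent.P289.Var Vale.Agent.P289.H219
open Vale.Agent.P297 (Place PlaceOver IsFF)
open Vale.Agent.P285N.Brep (jac Fr)

namespace Vale.Agent.P270L.S

set_option linter.unusedSectionVars false

theorem closure_span {α : Type*} {S : Set (α → ℝ)} (h0 : 0 ∈ S)
    (hadd : ∀ f ∈ S, ∀ g ∈ S, f + g ∈ S)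
    (hsm : ∀ a b : ℕ, 0 < b → ∀ f ∈ S, ((a : ℝ) / b) • f ∈ S) :
    closure (Submodule.span ℝ≥0 S : Set (α → ℝ)) ⊆ closure S := by
  refine closure_minimal (fun f hf => ?_) isClosed_closure
  induction hf using Submodule.span_induction with
  | mem f hf => exact subset_closure hf
  | zero => exact subset_closure h0
  | add f g _ _ hf hg => exact map_mem_closure₂ continuous_add hf hg hadd
  | smul a f _ hf =>
    have h1 : (a : ℝ) ∈ closure {r : ℝ | ∃ a b : ℕ, 0 < b ∧ r = (a : ℝ) / b} := by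
      rw [Metric.mem_closure_iff]
      intro ε hε
      obtain ⟨q, h1, h2⟩ := exists_rat_btwn (show (a : ℝ) < a + ε by linarith)
      have h3 : (0 : ℝ) ≤ q := a.2.trans h1.le
      have h4 : 0 ≤ q := by exact_mod_cast h3
      refine ⟨q, ⟨q.num.toNat, q.den, q.den_pos, ?_⟩, ?_⟩
      · rw [Rat.cast_def]
        congr 1
        exact_mod_cast (Int.toNat_of_nonneg (Rat.num_nonneg.2 h4)).symm
      · rw [Real.dist_eq, abs_lt]
        constructor <;> linarith
    refine map_mem_closure₂ (f := fun (r : ℝ) (g : α → ℝ) => r • g) continuous_smul h1 hf ?_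
    rintro _ ⟨a, b, hb, rfl⟩ g hg
    exact hsm a b hb g hg

variable {k : Type} [Field k] [CharZero k] [IsAlgClosed k] {V : Var k}

theorem mult_zero : IsCartierMultiple (0 : V.QDiv) 1 0 :=
  ⟨one_pos, fun y => by simp, fun p => ⟨1, one_ne_zero, fun y _ => by
    rw [ordAlong, ord_one']; rfl⟩⟩

theorem psef_approx {D : V.QDiv} (hD : IsPsef D) {τ : Type} [Finite τ] (C : τ → Curve V) {ε : ℝ}
    (hε : 0 < ε) : ∃ G : V.QDiv, 0 ≤ G ∧ IsQCartier G ∧
      ∀ j, |(inter G (C j) : ℝ) - inter D (C j)| < ε := by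
  have h1 := closure_span (S := numClass '' {G : V.QDiv | 0 ≤ G ∧ IsQCartier G}) ?_ ?_ ?_ hD.2
  · have h2 : IsOpen (⋂ j, {φ : Curve V → ℝ | |φ (C j) - inter D (C j)| < ε}) :=
      isOpen_iInter_of_finite fun j => isOpen_lt (by fun_prop) continuous_const
    obtain ⟨_, h3, G, hG, rfl⟩ := mem_closure_iff.1 h1 _ h2 (Set.mem_iInter.2 fun j => by
      change |numClass D (C j) - _| < ε
      rwa [numClass, sub_self, abs_zero])
    exact ⟨G, hG.1, hG.2, fun j => Set.mem_iInter.1 h3 j⟩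
  · refine ⟨0, ⟨le_rfl, _, _, mult_zero⟩, funext fun C => ?_⟩
    have h2 := inter_smul (C := C) ⟨_, _, mult_zero⟩ 0 1 one_pos
    rw [smul_zero] at h2
    rw [numClass, h2]
    simp
  · rintro _ ⟨G, ⟨h1, hG⟩, rfl⟩ _ ⟨G', ⟨h2, hG'⟩, rfl⟩
    refine ⟨G + G', ⟨add_nonneg h1 h2, ?_⟩, funext fun C => ?_⟩
    · obtain ⟨m, E, hE⟩ := hG
      obtain ⟨m', E', hE'⟩ := hG'
      exact ⟨_, _, mult_add hE hE'⟩
    · rw [numClass, inter_add hG hG', Rat.cast_add]
      rfl
  · rintro a b hb _ ⟨G, ⟨h1, hG⟩, rfl⟩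
    refine ⟨((a : ℚ) / b) • G, ⟨fun y => ?_, ?_⟩, funext fun C => ?_⟩
    · exact mul_nonneg (by positivity) (h1 y)
    · obtain ⟨m, E, hE⟩ := hG
      exact ⟨_, _, mult_smul hE a b hb⟩
    · rw [numClass, inter_smul hG a b hb]
      push_cast
      rfl

theorem toQ_apply (E : V.Div) (y : V.PrimeDiv) : toQ E y = E y := rfl

theorem mult_toQ {M : V.Div} (hM : IsCartier M) : IsCartierMultiple (toQ M) 1 M :=
  ⟨one_pos, fun y => by rw [toQ_apply, Nat.cast_one, one_mul], hM⟩

variable {ι : Type} [Fintype ι] [Nonempty ι] {x : ι → V.K} {U : ι → V.X.Opens} (h : Atl k x U)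
  {H : V.Div} (hH : Gen H x)

include h hH

/-- The system `R` represents `m D` numerically. -/
def Num (U : ι → V.X.Opens) (x : ι → V.K) (R : Cd V.K) (m : ℕ) (D : V.QDiv) : Prop :=
  ∀ (p : Cv k x) (C : Curve V) (j : C.C.functionField →ₐ[k] p.L), Over U p C j →
    (p.deg R : ℚ) = mult j * (m * inter D C)

theorem num_of {D : V.QDiv} {m : ℕ} {E : V.Div} (hE : IsCartierMultiple D m E) {u : V.K}
    (hu : u ≠ 0) {R : Cd V.K} (hR : Gen (E - divOf u hu + R.c • H) R.s) : Num U x R m D := by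
  intro p C j hp
  obtain ⟨e, he⟩ := exists_isDegree C hE.2.2
  have h5 : (m : ℚ) ≠ 0 := Nat.cast_ne_zero.2 hE.1.ne'
  rw [deg_eq h hp hH hR (isDegree_divOf he hu), inter_eq hE he, mul_div_cancel₀ _ h5]
  push_cast
  rfl

theorem num_of' {D : V.QDiv} {m : ℕ} {E : V.Div} (hE : IsCartierMultiple D m E)
    {R : Cd V.K} (hR : Gen (E + R.c • H) R.s) : Num U x R m D := by
  refine num_of h hH hE one_ne_zero ?_
  have h1 : divOf (1 : V.K) one_ne_zero = 0 := Finsupp.ext fun y => ord_one' _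
  rwa [h1, sub_zero]

theorem psf_of {D : V.QDiv} (hD : IsPsef D) {R : Cd V.K} {q : ℕ} (hR : Num U x R q D) :
    Psf k x R := by
  classical
  intro τ _ p ε hε
  let τ' := {t : τ // ∃ (C : Curve V) (j : C.C.functionField →ₐ[k] (p t).L), Over U (p t) C j}
  choose C j hj using fun t : τ' => t.2
  obtain ⟨N, hN⟩ := (Set.finite_range fun t : τ' => mult (j t) * q).bddAbove
  have hN0 : (0 : ℝ) < N + 1 := by positivity
  obtain ⟨G, hG0, ⟨m, E, hE⟩, hG⟩ := psef_approx hD C (div_pos hε hN0)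
  have hE' := mult_smul hE q 1 one_pos
  obtain ⟨R', hR'⟩ := exists_rep h hH hE'.2.2
  have hm : (m : ℝ) ≠ 0 := Nat.cast_ne_zero.2 hE.1.ne'
  refine ⟨R', m, hE.1, hR'.free h, fun i => ?_, fun t => ?_⟩
  · have h1 := sp_rep h hH hR' (i := i) (f := 1) fun _ y _ => by
      have h2 : (0 : ℚ) ≤ E y := by
        rw [hE.2.1]
        exact mul_nonneg (Nat.cast_nonneg m) (hG0 y)
      have h3 : 0 ≤ E y := by exact_mod_cast h2
      rw [ordAlong, ord_one', zero_add, Finsupp.smul_apply]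
      exact nsmul_nonneg h3 q
    rwa [one_mul] at h1
  · rcases const_or_curve h (p t) with h1 | h1
    · rw [h1, h1]
      simpa using hε
    · let t' : τ' := ⟨t, h1⟩
      have h2 := num_of' h hH hE' hR' _ _ _ (hj t')
      rw [inter_smul ⟨_, _, hE⟩ q 1 one_pos] at h2
      have h3 := hR _ _ _ (hj t')
      have h4 : (((p t).deg R' : ℤ) : ℝ) = mult (j t') * (m * (q * inter G (C t'))) := by
        rw [mul_one, Nat.cast_one, div_one] at h2
        exact_mod_cast h2
      have h5 : (((p t).deg R : ℤ) : ℝ) = mult (j t') * (q * inter D (C t')) := by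
        exact_mod_cast h3
      have h6 : (mult (j t') : ℝ) * (m * (q * inter G (C t'))) / m -
          mult (j t') * (q * inter D (C t')) =
          (mult (j t') * q : ℕ) * ((inter G (C t') : ℝ) - inter D (C t')) := by
        push_cast
        field_simp
      have h7 : ((mult (j t') * q : ℕ) : ℝ) ≤ N := by exact_mod_cast hN ⟨t', rfl⟩
      have h8 := hG t'
      rw [lt_div_iff₀ hN0] at h8
      rw [h4, h5, h6, abs_mul, Nat.abs_cast]
      have h9 := abs_nonneg ((inter G (C t') : ℝ) - inter D (C t'))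
      nlinarith

omit h hH in
theorem ord_jac {n : ℕ} {ω : V.Form n} {κ : V.Div} (hκ : IsDivisorOf κ ω) {y : Fin n → V.K}
    {δ : Fin n → V.Der} {g : V.K} (hg : g ≠ 0) (hω : ∀ v, ω.value v = g * jac v y)
    (hch : ∀ (v : Fin n → V.Der) (z : Fin n → V.K), jac v z = jac v y * jac δ z)
    (Y : V.PrimeDiv) {z : Fin n → V.K} (hz : ∀ a, z a ∈ loc Y.1) (h0 : jac δ z ≠ 0) :
    0 ≤ ordAlong (jac δ z) Y + κ Y - ordAlong g Y := by
  obtain ⟨v, h1, h2, h3⟩ := (hκ Y).1
  rw [hω] at h2 h3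
  have h4 := jac_mem (loc Y.1) v z 1 fun a b => by
    rw [one_mul]
    exact h1 a _ (hz b)
  rw [one_pow, one_mul, hch] at h4
  have h5 := ord_loc (y := Y) h4 specializes_rfl
  rw [ordAlong_mul (right_ne_zero_of_mul h2) h0] at h5
  rw [ordAlong_mul hg (right_ne_zero_of_mul h2)] at h3
  omega

omit h hH in
/-- **From function fields to varieties.** -/
theorem genAb_of_ff (k : Type) [Field k] [CharZero k] [IsAlgClosed k] (hff : FF k) :
    GenAbundance k := by
  intro V n ω κ B hkl hps M hM hMn hDn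
  obtain ⟨ι, _, _, x, U, h⟩ := exists_atlV V
  obtain ⟨H, hH⟩ := exists_gen h (free_coord h)
  have := h.essFinite
  obtain ⟨y, δ, g, hfr, hg, hω, hch⟩ := exists_frame (k := k) (K := V.K) hkl.dim ω hkl.nonzero
  obtain ⟨q, E, hE⟩ := hkl.cartier
  have hgq : g ^ q ≠ 0 := pow_ne_zero q hg
  have hE' : IsCartier (E - divOf _ hgq) := fun p => by
    obtain ⟨f, hf⟩ := hE.2.2 p
    exact ⟨_, gen_divOf hf hgq⟩
  obtain ⟨R, hR⟩ := exists_rep h hH hE'
  have hqM := mult_smul (mult_toQ hM) q 1 one_pos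
  obtain ⟨R', hR'⟩ := exists_rep h hH hqM.2.2
  have hq : (0 : ℚ) < q := Nat.cast_pos.2 hE.1
  have n1 := num_of h hH hE hgq hR
  have n2 : Num U x R' q (toQ M) := fun p C j hp => by
    rw [num_of' h hH hqM hR' p C j hp, inter_smul hMn.1 q 1 one_pos]
    simp
  have n3 : ∀ (p : Cv k x) (C : Curve V) (j : C.C.functionField →ₐ[k] p.L), Over U p C j →
      ((p.deg R + p.deg R' : ℤ) : ℚ) = mult j * (q * inter (toQ κ + B + toQ M) C) := by
    intro p C j hp
    rw [Int.cast_add, n1 p C j hp, n2 p C j hp, inter_add hps.1 hMn.1]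
    ring
  obtain ⟨m, σ, _, u, hm, hu, hdeg⟩ := hff n V.K ι x y δ q R R'
    { md := h.model V.normal
      fr := hfr
      q0 := hE.1
      fC := hR.free h
      fM := hR'.free h
      bdy := fun i e => sp_rep h hH hR fun h0 Y hY => by
        have h1 : jac δ (fun a => x (e a) / x i) ≠ 0 := fun h1 => h0 (by
          rw [h1, zero_pow hE.1.ne'])
        have h2 := ord_jac hkl.canonical hg hω hch Y
          (fun a => h.loc_of_mem (h.coord_mem i (e a)) hY) h1
        have h3 : (q * κ Y : ℚ) ≤ E Y := by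
          rw [hE.2.1, Finsupp.add_apply, toQ_apply, mul_add]
          exact le_add_of_nonneg_right (mul_nonneg hq.le (hkl.effective Y))
        have h4 : q * κ Y ≤ E Y := by exact_mod_cast h3
        have h5 := mul_nonneg (Int.natCast_nonneg q) h2
        rw [ordAlong_pow h1, Finsupp.sub_apply, divOf_apply, ordAlong_pow hg]
        linarith
      klt := fun P hP D hD h0 => by
        let F : DivisorOver V := ⟨P, hP.1, trdeg_residue hkl.dim P hP⟩
        obtain ⟨p, hp⟩ := h.centre P.ring hP.1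
        obtain ⟨f, hf⟩ := hE.2.2 p
        obtain ⟨N, hN⟩ := jac_bdd (k := k) P y
        obtain ⟨r, h1, h2⟩ := Int.exists_least_of_bdd (P := fun m : ℤ => ∃ v : Fin n → V.Der,
          (∀ i, ∀ f ∈ P.ring, applyDer (v i) f ∈ P.ring) ∧ ω.value v ≠ 0 ∧ P.ord (ω.value v) = m)
          ⟨P.ord g + N, by
            rintro _ ⟨v, h1, h2, rfl⟩
            have h3 : ω.value v = g * jac v y := hω v
            rw [h3] at h2 ⊢
            have h4 := hN v h1 (right_ne_zero_of_mul h2)
            rw [P.ord_mul hg (right_ne_zero_of_mul h2)]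
            omega⟩ ⟨_, D, hD, by rw [show ω.value D = _ from hω D]; exact mul_ne_zero hg h0, rfl⟩
        have h3 := h2 _ ⟨D, hD, by rw [show ω.value D = _ from hω D]; exact mul_ne_zero hg h0, rfl⟩
        rw [show ω.value D = _ from hω D, P.ord_mul hg h0] at h3
        have h4 := hkl.positive F _ ⟨r, _, ⟨h1, h2⟩, ⟨q, E, p, f, hE, hp, hf, rfl⟩, rfl⟩
        rw [sub_pos, div_lt_iff₀ hq] at h4
        have h5 : P.ord f⁻¹ < (1 + r) * q := by exact_mod_cast h4
        have h6 := mul_le_mul_of_nonneg_left h3 (Int.natCast_nonneg q)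
        rw [cf_rep h hH hR P (fun _ => hp.mem) (gen_divOf hf hgq), P.ord_mul hf.1 hgq, P.ord_pow]
        rw [P.ord_inv] at h5
        linarith
      psf := psf_of h hH hps n1
      nM := fun p => by
        rcases const_or_curve h p with h1 | ⟨C, j, hp⟩
        · exact (h1 _).ge
        · have h1 := hMn.2 C
          have h2 : (0 : ℚ) ≤ p.deg R' := by rw [n2 p C j hp]; positivity
          exact_mod_cast h2
      nD := fun p => by
        rcases const_or_curve h p with h1 | ⟨C, j, hp⟩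
        · rw [h1, h1, add_zero]
        · have h1 := hDn.2 C
          have h2 : (0 : ℚ) ≤ (p.deg R + p.deg R' : ℤ) := by rw [n3 p C j hp]; positivity
          exact_mod_cast h2 }
  obtain ⟨F, hF⟩ := exists_gen h hu
  have hFc : IsCartier F := fun p => by
    obtain ⟨l, hl⟩ := hF.gen p
    exact ⟨_, hl⟩
  have hmq := Nat.mul_pos hm hE.1
  have hL := mult_smul (mult_toQ hFc) 1 (m * q) hmq
  rw [one_smul] at hL
  refine ⟨_, ⟨_, F, hL.1, hL.2.1, hFc, fun p => ?_⟩, fun C => ?_⟩
  · obtain ⟨l, hl⟩ := hF.gen p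
    exact ⟨u l, fun Y => hF.sec l Y.1 hl.1 Y specializes_rfl, hl⟩
  · obtain ⟨p, j, hp⟩ := exists_cv h C
    have h1 := num_of' h hH hL (R := ⟨σ, u, 0⟩) (by rwa [zero_smul, add_zero]) p C j hp
    have h2 : p.deg ⟨σ, u, 0⟩ = m * (p.deg R + p.deg R') := by
      rw [← hdeg p, Cv.deg, Nat.cast_zero, zero_mul, sub_zero]
    rw [h2, Int.cast_mul, n3 p C j hp] at h1
    have h3 : (mult j : ℚ) * (m * q) ≠ 0 := by
      have := mult_pos j
      positivity
    refine mul_left_cancel₀ h3 ?_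
    generalize inter (((1 : ℕ) / (m * q : ℕ) : ℚ) • toQ F) C = d at h1 ⊢
    push_cast at h1
    linear_combination h1

end Vale.Agent.P270L.S
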