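import Vale.Agent.P270L.A.Biy
import Vale.Agent.P270L.A.Can
import Vale.Agent.P270L.A.Crv
import Vale.Agent.P270L.A.Deg
import Vale.Agent.P270L.A.Desc
import Vale.Agent.P270L.A.Dro
import Vale.Agent.P270L.A.Exc
import Vale.Agent.P270L.A.Ext
import Vale.Agent.P270L.A.Imm
import Vale.Agent.P270L.A.Jnz
import Vale.Agent.P270L.A.Kap
import Vale.Agent.P270L.A.Kla
import Vale.Agent.P270L.A.Lift
import Vale.Agent.P270L.A.Model
import Vale.Agent.P270L.A.Mxa
import Vale.Agent.P270L.A.Nex
import Vale.Agent.P270L.A.Nfc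
import Vale.Agent.P270L.A.Num
import Vale.Agent.P270L.A.Psa
import Vale.Agent.P270L.A.Reso
import Vale.Agent.P270L.A.Sat
import Vale.Agent.P270L.A.Sys
import Vale.Agent.P270L.A.Tb
import Vale.Agent.P270L.A.Top
import Vale.Agent.P270L.A.Vpd
import Vale.Agent.P270L.T.All
import Vale.Agent.P270L.S8Main
import Vale.Agent.P270X.Fin

/-!
# P270L: generalised abundance over every algebraically closed field of characteristic zero
-/

open Vale.Agent.P285S.Mm.Ps (NVS)
open Vale.Agent.P285M.Ms (LCB)

namespace Vale.Agent.P270L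

theorem sys : SYS := sys_of tb ctr

theorem vpd : VPD := vpd_of htm

theorem rows : Rows where
  dg := dg
  kap := kap_row
  dvl := dvl
  jnz := jnz
  nex := nex_of kap_row
  mxa := mxa
  lift := lift_of ext vpd htm
  desc := desc_of ext vpd
  low := low
  model := model
  reso := reso
  tb := tb
  dro := dro
  can := can_of kap_row tb
  sys := sys
  sat := sat
  imm := imm_of kap_row
  exc := exc
  kla := kla
  deg := deg_of tb sys (crv_of tb)
  nfc := nfc
  psa := psa
  num := num_of tb sys
  biy := biy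
  flc := P285N.Tp.flc
  lbc := fun _ _ => P277Z.Slc.isLB_can

/-- the analytic statement gives the algebraic statement -/
theorem genAb_of_gay (h : GAY) (k : Type) [Field k] [IsAlgClosed k] [CharZero k] :
    GenAbundance k :=
  S.genAb_of_ff k fun n => trans n (ana_of rows h n) k

theorem gay (nv : ∀ d, NVS d) (lc : ∀ d, LCB d) : GAY :=
  fun _ _ _ _ _ _ _ _ hQ h hC hM hn hi =>
    P270Z.gap (fun d _ => P270X.nor nv lc d) nv hQ h hC hM hn hi

theorem genAb (nv : ∀ d, NVS d) (lc : ∀ d, LCB d) (k : Type) [Field k] [IsAlgClosed k]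
    [CharZero k] : GenAbundance k :=
  genAb_of_gay (gay nv lc) k

end Vale.Agent.P270L
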