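import Vale.Agent.P297.Bdl.B1

/-!
# P270L (S): the order of vanishing at a singular point of a curve is the sum over the branches
-/

open Vale.Agent.P297 (Place PlaceOver IsFF)
open scoped Pointwise

namespace Vale.Agent.P270L.S

theorem len_le {A M N : Type*} [CommRing A] [AddCommGroup M] [Module A M] [AddCommGroup N]
    [Module A N] (f : M →ₗ[A] N) (hf : Function.Injective f) (M' : Submodule A M)
    (N' : Submodule A N) (h : N' ≤ M'.map f) :
    Module.length A (M ⧸ M') ≤ Module.length A (N ⧸ N') := by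
  have h1 : Function.Injective (M'.mapQ (M'.map f) f (Submodule.le_comap_map _ _)) := by
    rw [← LinearMap.ker_eq_bot, Submodule.ker_mapQ, Submodule.comap_map_eq_of_injective hf,
      Submodule.mkQ_map_self]
  exact (Module.length_le_of_injective _ h1).trans
    (Module.length_le_of_surjective (Submodule.factor h) (Submodule.factor_surjective h))

/-- The length over `A` of `B / b B`. -/
noncomputable def oB (A : Type*) {B : Type*} [CommRing A] [CommRing B] [Algebra A B] (b : B) : ℕ∞ :=
  Module.length A (B ⧸ Ideal.span {b})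

theorem oB_mul (A : Type*) {B : Type*} [CommRing A] [CommRing B] [IsDomain B] [Algebra A B]
    (a : B) {b : B} (hb : b ≠ 0) : oB A (a * b) = oB A a + oB A b := by
  have := Module.length_eq_add_of_exact
    ((Ideal.mulQuot b (Ideal.span {a})).restrictScalars A)
    ((Ideal.quotOfMul b (Ideal.span {a})).restrictScalars A)
    (Ideal.mulQuot_injective (Ideal.span {a}) (mem_nonZeroDivisors_of_ne_zero hb))
    (Ideal.quotOfMul_surjective (Ideal.span {a}))
    (Ideal.exact_mulQuot_quotOfMul (Ideal.span {a}))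
  simp only [oB, ← this]
  have lem : (({b} : Set B) • Ideal.span {a}) = Ideal.span {b * a} := by
    simp [← Ideal.submodule_span_eq, Submodule.set_smul_span]
  have h2 : (({b} : Set B) • Ideal.span {a}) = b • Ideal.span {a} := Submodule.singleton_set_smul
    (Ideal.span {a}) b
  rw [h2] at lem
  rw [lem, mul_comm]

theorem oB_unit (A : Type*) {B : Type*} [CommRing A] [CommRing B] [Algebra A B] {b : B}
    (hb : IsUnit b) : oB A b = 0 := by
  rw [oB, Module.length_eq_zero_iff, Ideal.span_singleton_eq_top.2 hb]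
  infer_instance

theorem oB_pow (A : Type*) {B : Type*} [CommRing A] [CommRing B] [IsDomain B] [Algebra A B]
    {b : B} (hb : b ≠ 0) (n : ℕ) : oB A (b ^ n) = n * oB A b := by
  induction n with
  | zero => rw [pow_zero, oB_unit A isUnit_one]; simp
  | succ n ih => rw [pow_succ, oB_mul A _ hb, ih]; push_cast; ring

theorem oB_one {A B : Type*} [CommRing A] [IsLocalRing A] [CommRing B] [Algebra A B] {b : B}
    (h1 : ∀ x : B, ∃ a : A, x - algebraMap A B a ∈ Ideal.span {b})
    (h2 : ∀ a : A, algebraMap A B a ∈ Ideal.span {b} ↔ ¬ IsUnit a) : oB A b = 1 := by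
  let f : A →ₗ[A] B ⧸ Ideal.span {b} := Algebra.linearMap A (B ⧸ Ideal.span {b})
  have hf : ∀ a, f a = Ideal.Quotient.mk _ (algebraMap A B a) := fun a => rfl
  have hs : Function.Surjective f := by
    intro y
    obtain ⟨x, rfl⟩ := Ideal.Quotient.mk_surjective y
    obtain ⟨a, ha⟩ := h1 x
    exact ⟨a, by rw [hf]; exact (Ideal.Quotient.eq.2 ha).symm⟩
  have hk : LinearMap.ker f = IsLocalRing.maximalIdeal A := by
    ext a
    rw [LinearMap.mem_ker, hf, Ideal.Quotient.eq_zero_iff_mem, h2]
    rfl
  rw [oB, ← (f.quotKerEquivOfSurjective hs).length_eq, hk, Module.length_eq_one_iff]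
  exact isSimpleModule_iff_isCoatom.2 (Ideal.isMaximal_def.1 inferInstance)

theorem eq_of_asymp {x y c d : ℕ∞} (hx : x ≠ ⊤) (hy : y ≠ ⊤) (hc : c ≠ ⊤) (hd : d ≠ ⊤)
    (h1 : ∀ n : ℕ, n * x ≤ n * y + c) (h2 : ∀ n : ℕ, n * y ≤ n * x + d) : x = y := by
  lift x to ℕ using hx
  lift y to ℕ using hy
  lift c to ℕ using hc
  lift d to ℕ using hd
  have h3 := h1 (c + 1)
  have h4 := h2 (d + 1)
  norm_cast at h3 h4 ⊢
  rcases lt_trichotomy x y with h | h | h
  · nlinarith
  · exact h
  · nlinarith

/-- Comparison of the two lengths, with a conductor. -/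
theorem ord_eq_oB {A B : Type*} [CommRing A] [IsDomain A] [IsNoetherianRing A]
    [Ring.KrullDimLE 1 A] [CommRing B] [IsDomain B] [Algebra A B]
    (hinj : Function.Injective (algebraMap A B)) {c : A} (hc : c ≠ 0)
    (hcB : ∀ b : B, ∃ r : A, algebraMap A B r = algebraMap A B c * b)
    (hfin : ∀ b : B, b ≠ 0 → oB A b ≠ ⊤) {a : A} (ha : a ≠ 0) :
    Ring.ord A a = oB A (algebraMap A B a) := by
  have hne : ∀ x : A, x ≠ 0 → algebraMap A B x ≠ 0 := fun x hx =>
    (map_ne_zero_iff _ hinj).2 hx
  have hA : ∀ x : A, Ring.ord A x = oB A x := fun x => rfl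
  refine eq_of_asymp (c := oB A (algebraMap A B c)) (d := Ring.ord A c)
    (Ring.ord_ne_top (mem_nonZeroDivisors_of_ne_zero ha)) (hfin _ (hne a ha)) (hfin _ (hne c hc))
    (Ring.ord_ne_top (mem_nonZeroDivisors_of_ne_zero hc)) (fun n => ?_) (fun n => ?_)
  · rw [hA, ← oB_pow A ha, ← oB_pow A (hne a ha), ← oB_mul A _ (hne c hc)]
    refine len_le (Algebra.linearMap A B) hinj (Ideal.span {a ^ n})
      ((Ideal.span {algebraMap A B a ^ n * algebraMap A B c}).restrictScalars A) ?_
    intro x hx
    obtain ⟨b, rfl⟩ := Ideal.mem_span_singleton'.1 hx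
    obtain ⟨r, hr⟩ := hcB b
    refine ⟨r * a ^ n, Ideal.mul_mem_left _ _ (Ideal.mem_span_singleton_self _), ?_⟩
    rw [Algebra.linearMap_apply, map_mul, hr, map_pow]
    ring
  · rw [hA, hA, ← oB_pow A ha, ← oB_pow A (hne a ha), ← oB_mul A _ hc]
    choose g hg using hcB
    let f : B →ₗ[A] A :=
      { toFun := g
        map_add' := fun x y => hinj (by rw [map_add, hg, hg, hg, mul_add])
        map_smul' := fun r x => hinj (by
          rw [RingHom.id_apply, smul_eq_mul, map_mul, hg, hg, Algebra.smul_def]; ring) }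
    have hf : Function.Injective f := by
      intro x y hxy
      have h1 : algebraMap A B (g x) = algebraMap A B (g y) := congrArg _ hxy
      rw [hg, hg] at h1
      exact mul_left_cancel₀ (hne c hc) h1
    refine len_le f hf ((Ideal.span {algebraMap A B a ^ n}).restrictScalars A)
      (Ideal.span {a ^ n * c}) ?_
    intro x hx
    obtain ⟨r, rfl⟩ := Ideal.mem_span_singleton'.1 hx
    refine ⟨algebraMap A B r * algebraMap A B a ^ n,
      Ideal.mul_mem_left _ _ (Ideal.mem_span_singleton_self _), hinj ?_⟩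
    change algebraMap A B (g _) = _
    rw [hg, map_mul, map_mul, map_pow]
    ring

section Branch

variable {k L A : Type} [Field k] [CharZero k] [IsAlgClosed k] [Field L] [Algebra k L] [IsFF k L]
  [CommRing A] [IsDomain A] [IsLocalRing A] [IsNoetherianRing A] [Ring.KrullDimLE 1 A]
  [Algebra A L] [IsFractionRing A L]

omit [IsNoetherianRing A] in
/-- A place which contains a local ring of dimension one dominates it. -/
theorem dom_of_le (P : Place L) (hP : ∀ a : A, algebraMap A L a ∈ P.ring) {a : A} (ha0 : a ≠ 0)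
    (ha : ¬ IsUnit a) : 0 < P.ord (algebraMap A L a) := by
  have hinj := IsFractionRing.injective A L
  let φ : A →+* P.ring := (algebraMap A L).codRestrict P.ring hP
  let p : Ideal A := (IsLocalRing.maximalIdeal P.ring).comap φ
  have hp : p ≠ ⊥ := by
    intro h0
    apply P.ring_ne_top
    rw [eq_top_iff]
    intro x _
    obtain ⟨r, s, hs, rfl⟩ := IsFractionRing.div_surjective (A := A) x
    have hs0 : s ≠ 0 := nonZeroDivisors.ne_zero hs
    have h1 : s ∉ p := by rw [h0]; exact hs0
    have h2 : IsUnit (φ s) := by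
      by_contra h3
      exact h1 h3
    obtain ⟨b, hb⟩ := h2.exists_right_inv
    have h3 : algebraMap A L s * (b : L) = 1 := congrArg (fun z : P.ring => (z : L)) hb
    rw [div_eq_mul_inv, ← eq_inv_of_mul_eq_one_right h3]
    exact P.ring.mul_mem _ _ (hP r) b.2
  have hmax : p.IsMaximal := (Ring.krullDimLE_one_iff_of_isPrime_bot.1 inferInstance) p hp
    inferInstance
  have h1 : a ∈ p := by
    rw [IsLocalRing.eq_maximalIdeal hmax]
    exact ha
  apply P.ord_pos_of_inv_notMem
  intro hinv
  apply (show ¬ IsUnit (φ a) from h1)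
  refine IsUnit.of_mul_eq_one ⟨_, hinv⟩ (Subtype.ext ?_)
  exact mul_inv_cancel₀ ((map_ne_zero_iff _ hinj).2 ha0)

/-- The ring of the functions which are regular at the places of `T`. -/
def semiLoc (A : Type) [CommRing A] [Algebra A L] (T : Finset (PlaceOver k L))
    (hT : ∀ P ∈ T, ∀ a : A, algebraMap A L a ∈ P.1.ring) : Subalgebra A L where
  carrier := {f | ∀ P ∈ T, f ∈ P.1.ring}
  mul_mem' := fun ha hb P hP => P.1.ring.mul_mem _ _ (ha P hP) (hb P hP)
  add_mem' := fun ha hb P hP => P.1.ring.add_mem _ _ (ha P hP) (hb P hP)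
  algebraMap_mem' := fun a P hP => hT P hP a

omit [IsNoetherianRing A] in
theorem oB_semiLoc (hk : ∀ c : k, ∃ a : A, algebraMap A L a = algebraMap k L c)
    (T : Finset (PlaceOver k L)) (hT : ∀ P ∈ T, ∀ a : A, algebraMap A L a ∈ P.1.ring) (n : ℕ) :
    ∀ b : semiLoc A T hT, b ≠ 0 → ∑ P ∈ T, P.1.ord (b : L) = n → oB A b = n := by
  classical
  have hinj := IsFractionRing.injective A L
  induction n with
  | zero =>
    intro b hb h
    have hb0 : (b : L) ≠ 0 := fun h0 => hb (Subtype.ext h0)
    rw [Nat.cast_zero, Finset.sum_eq_zero_iff_of_nonneg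
      (fun P hP => P.1.ord_nonneg_of_mem (b.2 P hP))] at h
    rw [Nat.cast_zero]
    refine oB_unit A (IsUnit.of_mul_eq_one ⟨(b : L)⁻¹, fun P hP => ?_⟩
      (Subtype.ext (mul_inv_cancel₀ hb0)))
    exact ((P.1.ord_eq_zero_iff hb0).1 (h P hP)).2
  | succ n ih =>
    intro b hb h
    have hb0 : (b : L) ≠ 0 := fun h0 => hb (Subtype.ext h0)
    obtain ⟨P, hP, hPb⟩ : ∃ P ∈ T, 0 < P.1.ord (b : L) := by
      by_contra hcon
      push Not at hcon
      have := Finset.sum_nonpos hcon
      rw [h] at this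
      omega
    obtain ⟨u, hu0, hu1, hu2⟩ := P297.exists_ord_one (T.erase P) P (Finset.notMem_erase P T)
    have hdiv : ∀ f : L, f ≠ 0 → (∀ Q ∈ T, f ∈ Q.1.ring) → 0 < P.1.ord f →
        ∀ Q ∈ T, f / u ∈ Q.1.ring := by
      intro f hf h1 h2 Q hQ
      rw [← Q.1.ord_nonneg_iff (div_ne_zero hf hu0), Q.1.ord_div hf hu0]
      by_cases hQP : Q = P
      · rw [hQP, hu1]; omega
      · rw [hu2 Q (Finset.mem_erase.2 ⟨hQP, hQ⟩), sub_zero]
        exact Q.1.ord_nonneg_of_mem (h1 Q hQ)
    have huT : ∀ Q ∈ T, u ∈ Q.1.ring := by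
      intro Q hQ
      rw [← Q.1.ord_nonneg_iff hu0]
      by_cases hQP : Q = P
      · rw [hQP, hu1]; omega
      · rw [hu2 Q (Finset.mem_erase.2 ⟨hQP, hQ⟩)]
    let π : semiLoc A T hT := ⟨u, huT⟩
    have hπ : π ≠ 0 := fun h0 => hu0 (congrArg Subtype.val h0)
    have hmem : ∀ f : semiLoc A T hT, f ∈ Ideal.span {π} ↔ (f : L) = 0 ∨ 0 < P.1.ord (f : L) := by
      intro f
      constructor
      · intro hf
        obtain ⟨g, rfl⟩ := Ideal.mem_span_singleton'.1 hf
        by_cases hg : (g : L) = 0
        · left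
          change (g : L) * u = 0
          rw [hg, zero_mul]
        · right
          change 0 < P.1.ord ((g : L) * u)
          rw [P.1.ord_mul hg hu0, hu1]
          have := P.1.ord_nonneg_of_mem (g.2 P hP)
          omega
      · intro hf
        by_cases h0 : (f : L) = 0
        · rw [show f = 0 from Subtype.ext h0]
          exact zero_mem _
        · refine Ideal.mem_span_singleton'.2 ⟨⟨(f : L) / u, hdiv f h0 f.2 (hf.resolve_left h0)⟩,
            Subtype.ext ?_⟩
          exact div_mul_cancel₀ _ hu0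
    have h1 : oB A π = 1 := by
      refine oB_one (fun x => ?_) (fun a => ?_)
      · obtain ⟨c, hc⟩ := P297.exists_const P.1 P.2 (x.2 P hP)
        obtain ⟨a, ha⟩ := hk c
        refine ⟨a, (hmem _).2 ?_⟩
        have h2 : ((x - algebraMap A (semiLoc A T hT) a : semiLoc A T hT) : L) =
            (x : L) - algebraMap k L c := by rw [← ha]; rfl
        rw [h2]
        exact hc.imp_left sub_eq_zero.2
      · rw [hmem]
        change algebraMap A L a = 0 ∨ 0 < P.1.ord (algebraMap A L a) ↔ _
        constructor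
        · rintro (h0 | h0) hu
          · exact hu.ne_zero (hinj (by rw [h0, map_zero]))
          · obtain ⟨a', ha'⟩ := hu.exists_right_inv
            have h3 : algebraMap A L a * algebraMap A L a' = 1 := by rw [← map_mul, ha', map_one]
            have h4 := P.1.ord_nonneg_of_mem (hT P hP a')
            rw [eq_inv_of_mul_eq_one_right h3, P.1.ord_inv] at h4
            omega
        · intro hu
          by_cases h0 : a = 0
          · left; rw [h0, map_zero]
          · exact Or.inr (dom_of_le P.1 (hT P hP) h0 hu)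
    let b' : semiLoc A T hT := ⟨(b : L) / u, hdiv b hb0 b.2 hPb⟩
    have hb' : b = b' * π := Subtype.ext (div_mul_cancel₀ _ hu0).symm
    have hb'0 : b' ≠ 0 := by
      intro h0
      rw [h0, zero_mul] at hb'
      exact hb hb'
    have h2 : ∑ Q ∈ T, Q.1.ord (b' : L) = n := by
      have h3 : ∀ Q ∈ T, Q.1.ord (b' : L) = Q.1.ord (b : L) - Q.1.ord u := fun Q _ =>
        Q.1.ord_div hb0 hu0
      rw [Finset.sum_congr rfl h3, Finset.sum_sub_distrib, h,
        ← Finset.add_sum_erase T (fun Q => Q.1.ord u) hP, hu1, Finset.sum_eq_zero hu2]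
      push_cast
      ring
    rw [hb', oB_mul A _ hπ, ih b' hb'0 h2, h1]
    push_cast
    rfl

/-- **The order of vanishing is the sum of the orders along the branches.** -/
theorem len_formula (hk : ∀ c : k, ∃ a : A, algebraMap A L a = algebraMap k L c)
    (T : Finset (PlaceOver k L)) (hT : ∀ P, P ∈ T ↔ ∀ a : A, algebraMap A L a ∈ P.1.ring)
    {c : A} (hc : c ≠ 0)
    (hcA : ∀ f : L, IsIntegral A f → ∃ r : A, algebraMap A L r = algebraMap A L c * f)
    {u : L} (hu : u ≠ 0) : WithZero.log (Ring.ordFrac A u) = ∑ P ∈ T, P.1.ord u := by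
  have hinj := IsFractionRing.injective A L
  let B := semiLoc A T (fun P hP => (hT P).1 hP)
  have hinjB : Function.Injective (algebraMap A B) := fun x y h =>
    hinj (congrArg Subtype.val h)
  have hsum : ∀ b : B, b ≠ 0 → oB A b = (∑ P ∈ T, P.1.ord (b : L)).toNat := by
    intro b hb
    refine oB_semiLoc hk T _ _ b hb (Int.toNat_of_nonneg ?_).symm
    exact Finset.sum_nonneg fun P hP => P.1.ord_nonneg_of_mem (b.2 P hP)
  have hint : ∀ b : B, IsIntegral A (b : L) := by
    intro b
    let R : Subring L := (integralClosure A L).toSubring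
    by_contra hb
    have hbR : (b : L) ∉ R := hb
    have : IsIntegrallyClosedIn R L := inferInstanceAs (IsIntegrallyClosedIn (integralClosure A L) L)
    obtain ⟨V, hV1, hV2⟩ := Subring.exists_le_valuationSubring_of_isIntegrallyClosedIn hbR
    have hAV : ∀ a : A, algebraMap A L a ∈ V := fun a =>
      hV1 ((integralClosure A L).algebraMap_mem a)
    have hkV : ∀ c : k, algebraMap k L c ∈ V := fun c => by
      obtain ⟨a, ha⟩ := hk c
      rw [← ha]
      exact hAV a
    obtain ⟨P, hP⟩ := P297.exists_place (k := k) V hkV (by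
      rintro rfl
      exact hV2 (ValuationSubring.mem_top _))
    apply hV2
    rw [← hP]
    refine b.2 ⟨P, by rw [hP]; exact hkV⟩ ((hT _).2 ?_)
    rw [hP]
    exact hAV
  have hA : ∀ a : A, a ≠ 0 → WithZero.log (Ring.ordFrac A (algebraMap A L a)) =
      ∑ P ∈ T, P.1.ord (algebraMap A L a) := by
    intro a ha
    have h1 := ord_eq_oB hinjB hc (fun b => by
      obtain ⟨r, hr⟩ := hcA b (hint b)
      exact ⟨r, Subtype.ext hr⟩) (fun b hb => by rw [hsum b hb]; exact ENat.natCast_ne_top _) ha
    rw [hsum _ ((map_ne_zero_iff _ hinjB).2 ha)] at h1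
    rw [Ring.ordFrac_eq_ord _ ha, Ring.ordMonoidWithZeroHom_eq_coe _
      (mem_nonZeroDivisors_of_ne_zero ha) h1]
    change WithZero.log (WithZero.exp _) = _
    rw [WithZero.log_exp]
    exact Int.toNat_of_nonneg
      (Finset.sum_nonneg fun P hP => P.1.ord_nonneg_of_mem ((hT P).1 hP a))
  obtain ⟨r, s, hs, rfl⟩ := IsFractionRing.div_surjective (A := A) u
  have hs0 : s ≠ 0 := nonZeroDivisors.ne_zero hs
  have hr0 : r ≠ 0 := by
    rintro rfl
    exact hu (by rw [map_zero, zero_div])
  have hr1 := (map_ne_zero_iff _ hinj).2 hr0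
  have hs1 := (map_ne_zero_iff _ hinj).2 hs0
  rw [map_div₀, WithZero.log_div ((map_ne_zero _).2 hr1) ((map_ne_zero _).2 hs1), hA r hr0,
    hA s hs0, ← Finset.sum_sub_distrib]
  exact Finset.sum_congr rfl fun P _ => (P.1.ord_div hr1 hs1).symm

end Branch

end Vale.Agent.P270L.S
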