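import Vale.Agent.P270L.S1Len
import Vale.Agent.P270L.FF
import Vale.Agent.P299.Q.AlgInd

/-!
# P270L (S): conductors, finite extensions of function fields of curves, frames, residue fields
-/

open Vale.Agent.P297 (Place PlaceOver IsFF)
open Vale.Agent.P285N.Brep (jac Fr)

namespace Vale.Agent.P270L.S

/-- The conductor of an affine domain in characteristic zero. -/
theorem exists_conductor {k R L : Type} [Field k] [CharZero k] [CommRing R] [IsDomain R]
    [Algebra k R] [Algebra.FiniteType k R] [Field L] [Algebra R L] [IsFractionRing R L]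
    [Algebra k L] [IsScalarTower k R L] :
    ∃ c : R, c ≠ 0 ∧ ∀ f : L, IsIntegral R f → ∃ r : R, algebraMap R L r = algebraMap R L c * f := by
  classical
  obtain ⟨s, g, hg, hgi⟩ := exists_integral_inj_algHom_of_fg k R
  let P := MvPolynomial (Fin s) k
  let _ : Algebra P R := g.toRingHom.toAlgebra
  let _ : Algebra P L := ((algebraMap R L).comp g.toRingHom).toAlgebra
  have : IsScalarTower P R L := IsScalarTower.of_algebraMap_eq fun _ => rfl
  have : IsScalarTower k P L := IsScalarTower.of_algebraMap_eq fun c => by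
    change _ = algebraMap R L (g (algebraMap k P c))
    rw [g.commutes, ← IsScalarTower.algebraMap_apply]
  have hint : Algebra.IsIntegral P R := ⟨fun x => hgi x⟩
  have hinj : Function.Injective (algebraMap P L) := (IsFractionRing.injective R L).comp hg
  have : FaithfulSMul P L := (faithfulSMul_iff_algebraMap_injective _ _).2 hinj
  let K := FractionRing P
  let _ : Algebra K L := FractionRing.liftAlgebra P L
  have : IsScalarTower P K L := FractionRing.isScalarTower_liftAlgebra P L
  have : IsScalarTower k K L := IsScalarTower.of_algebraMap_eq fun c => by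
    rw [IsScalarTower.algebraMap_apply k P K, ← IsScalarTower.algebraMap_apply P K L,
      ← IsScalarTower.algebraMap_apply]
  have hess : Algebra.EssFiniteType k L := by
    have : Algebra.EssFiniteType R L := Algebra.EssFiniteType.of_isLocalization L (nonZeroDivisors R)
    exact Algebra.EssFiniteType.comp k R L
  have : Algebra.EssFiniteType K L := Algebra.EssFiniteType.of_comp k K L
  have : Algebra.IsAlgebraic K L := ⟨fun x => by
    obtain ⟨a, b, -, rfl⟩ := IsFractionRing.div_surjective (A := R) x
    have h1 : ∀ a : R, IsAlgebraic K (algebraMap R L a) := fun a =>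
      ((hint.isIntegral a).algebraMap (B := L)).tower_top.isAlgebraic
    rw [div_eq_mul_inv]
    exact (h1 a).mul (h1 b).inv⟩
  have : FiniteDimensional K L := P297.finiteDimensional_of_essFinite K L
  have : CharZero K := charZero_of_injective_algebraMap (algebraMap k K).injective
  have hfin : Module.Finite P (integralClosure P L) := IsIntegralClosure.finite P K L _
  obtain ⟨t, ht⟩ := hfin.fg_top
  have h1 : ∀ x : L, ∃ b : R, b ≠ 0 ∧ ∃ a : R, algebraMap R L a = algebraMap R L b * x := by
    intro x
    obtain ⟨a, b, hb, rfl⟩ := IsFractionRing.div_surjective (A := R) x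
    have hb0 : b ≠ 0 := nonZeroDivisors.ne_zero hb
    refine ⟨b, hb0, a, ?_⟩
    rw [mul_div_cancel₀ _ ((map_ne_zero_iff _ (IsFractionRing.injective R L)).2 hb0)]
  choose b hb0 a ha using h1
  refine ⟨∏ x ∈ t, b x, Finset.prod_ne_zero_iff.2 fun x _ => hb0 _, fun f hf => ?_⟩
  have hfP : IsIntegral P f := isIntegral_trans f hf
  have h2 : ∀ y : integralClosure P L, y ∈ Submodule.span P (t : Set (integralClosure P L)) →
      ∃ r : R, algebraMap R L r = algebraMap R L (∏ x ∈ t, b x) * y := by
    intro y hy
    induction hy using Submodule.span_induction with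
    | mem x hx =>
      refine ⟨(∏ y ∈ t.erase x, b y) * a x, ?_⟩
      rw [← Finset.prod_erase_mul t _ hx, map_mul, map_mul, ha, mul_assoc]
    | zero => exact ⟨0, by simp⟩
    | add x y _ _ hx hy =>
      obtain ⟨r, hr⟩ := hx
      obtain ⟨r', hr'⟩ := hy
      exact ⟨r + r', by rw [map_add, hr, hr', Subalgebra.coe_add, mul_add]⟩
    | smul c x _ hx =>
      obtain ⟨r, hr⟩ := hx
      refine ⟨algebraMap P R c * r, ?_⟩
      rw [map_mul, hr, Subalgebra.coe_smul, Algebra.smul_def, ← IsScalarTower.algebraMap_apply]
      ring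
  exact h2 ⟨f, hfP⟩ (by rw [ht]; trivial)

section Ext

variable {k K E : Type} [Field k] [CharZero k] [IsAlgClosed k] [Field K] [Field E] [Algebra k K]
  [Algebra k E] [Algebra K E] [IsScalarTower k K E] [IsFF k K] [IsFF k E] [FiniteDimensional K E]

omit [IsAlgClosed k] [IsFF k E] in
theorem exists_restrict (K : Type) [Field K] [Algebra k K] [Algebra K E] [IsScalarTower k K E]
    [IsFF k K] [FiniteDimensional K E] (w : PlaceOver k E) :
    ∃ v : PlaceOver k K, v.1.ring = w.1.ring.comap (algebraMap K E) := by
  have hk : ∀ a : k, algebraMap k K a ∈ w.1.ring.comap (algebraMap K E) := by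
    intro a
    change algebraMap K E (algebraMap k K a) ∈ w.1.ring
    rw [← IsScalarTower.algebraMap_apply]
    exact w.2 a
  obtain ⟨v, hv⟩ := P297.exists_place (k := k) (w.1.ring.comap (algebraMap K E)) hk
    (P297.comap_ne_top w.1)
  exact ⟨⟨v, by rw [hv]; exact hk⟩, hv⟩

/-- Restriction of places. -/
noncomputable def rp (K : Type) [Field K] [Algebra k K] [Algebra K E] [IsScalarTower k K E]
    [IsFF k K] [FiniteDimensional K E] (w : PlaceOver k E) : PlaceOver k K :=
  (exists_restrict K w).choose

omit [IsAlgClosed k] [IsFF k E] in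
theorem rp_ring (w : PlaceOver k E) : (rp K w).1.ring = w.1.ring.comap (algebraMap K E) :=
  (exists_restrict K w).choose_spec

omit [IsAlgClosed k] [IsFF k E] in
theorem mem_rp (w : PlaceOver k E) (x : K) : x ∈ (rp K w).1.ring ↔ algebraMap K E x ∈ w.1.ring := by
  rw [rp_ring]; rfl

theorem mapDomain_rp {u : K} (hu : u ≠ 0) :
    Finsupp.mapDomain (rp K) (P297.div k (algebraMap K E u)) =
      Module.finrank K E • P297.div k u := by
  have : CharZero K := charZero_of_injective_algebraMap (algebraMap k K).injective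
  ext v
  rw [P297.mapDomain_apply_finsum, Finsupp.smul_apply, P297.div_apply]
  obtain ⟨hfin, hnorm⟩ := Place.norm_formula (E := E) v.1 (P297.isAlgClosed_residueField v.1 v.2)
  have h1 := hnorm _ ((map_ne_zero (algebraMap K E)).2 hu)
  rw [Algebra.norm_algebraMap, Place.ord_pow] at h1
  rw [nsmul_eq_mul, ← h1]
  let e : {w : PlaceOver k E // rp K w = v} ≃ Place.Over E v.1 :=
    { toFun := fun w => ⟨w.1.1, by rw [← rp_ring (K := K) w.1, w.2]⟩
      invFun := fun w => ⟨⟨w.1, fun a => by
          have h1 : algebraMap k K a ∈ w.1.ring.comap (algebraMap K E) := by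
            rw [w.2]; exact v.2 a
          have h2 : algebraMap K E (algebraMap k K a) ∈ w.1.ring := h1
          rwa [← IsScalarTower.algebraMap_apply] at h2⟩, by
          apply Subtype.ext
          apply Place.ext'
          rw [rp_ring]
          exact w.2⟩
      left_inv := fun w => rfl
      right_inv := fun w => rfl }
  rw [← finsum_comp_equiv e]
  rfl

end Ext

section Frame

variable {k K : Type} [Field k] [Field K] [Algebra k K] {n : ℕ}

/-- A nonzero form of the top degree is a multiple of `dy`. -/
theorem exists_frame [CharZero k] [Algebra.EssFiniteType k K] (hn : Algebra.trdeg k K = n)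
    (ω : Derivation k K K [⋀^Fin n]→ₗ[K] K) (hω : ω ≠ 0) :
    ∃ (y : Fin n → K) (δ : Fin n → Derivation k K K) (g : K), Fr y δ ∧ g ≠ 0 ∧
      (∀ v, ω v = g * jac v y) ∧ ∀ (v : Fin n → Derivation k K K) (z : Fin n → K),
        jac v z = jac v y * jac δ z := by
  classical
  obtain ⟨ι, x, hx⟩ := exists_isTranscendenceBasis' k K
  have hc : Cardinal.mk ι = n := by rw [hx.cardinalMk_eq_trdeg, hn]
  obtain ⟨e⟩ := Cardinal.mk_eq_nat_iff.1 hc
  let y : Fin n → K := x ∘ e.symm
  have hy : IsTranscendenceBasis k y := hx.comp_equiv e.symm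
  let ev : Derivation k K K →ₗ[K] (Fin n → K) :=
    { toFun := fun D j => D (y j)
      map_add' := fun _ _ => rfl
      map_smul' := fun _ _ => rfl }
  have hinj : Function.Injective ev := by
    refine (injective_iff_map_eq_zero _).2 fun D hD => ?_
    refine P299.Q.derivation_eq_zero hy.isAlgebraic D ?_
    rintro _ ⟨j, rfl⟩
    exact congrFun hD j
  obtain ⟨v, hv⟩ : ∃ v, ω v ≠ 0 := by
    by_contra h
    push Not at h
    exact hω (AlternatingMap.ext h)
  have hli : LinearIndependent K v := by
    by_contra h
    exact hv (ω.map_linearDependent v h)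
  have hsurj : Function.Surjective ev := by
    have h1 : LinearIndependent K (ev ∘ v) := hli.map' ev (LinearMap.ker_eq_bot.2 hinj)
    have h2 : Submodule.span K (Set.range (ev ∘ v)) = ⊤ :=
      h1.span_eq_top_of_card_eq_finrank' (by simp)
    rw [← LinearMap.range_eq_top, eq_top_iff, ← h2, Submodule.span_le]
    rintro _ ⟨i, rfl⟩
    exact ⟨v i, rfl⟩
  let E := LinearEquiv.ofBijective ev ⟨hinj, hsurj⟩
  let b : Module.Basis (Fin n) K (Derivation k K K) := (Pi.basisFun K (Fin n)).map E.symm
  have hrepr : ∀ D j, b.repr D j = D (y j) := fun D j => rfl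
  have hdual : ∀ i j, b i (y j) = if i = j then 1 else 0 := by
    intro i j
    rw [← hrepr, b.repr_self, Finsupp.single_apply]
  have hdet : ∀ v, b.det v = jac v y := by
    intro v
    rw [Module.Basis.det_apply, jac, ← Matrix.det_transpose]
    rfl
  have hωv : ∀ v, ω v = ω b * jac v y := by
    intro v
    conv_lhs => rw [ω.eq_smul_basis_det b]
    rw [AlternatingMap.smul_apply, hdet, smul_eq_mul]
  refine ⟨y, b, ω b, ⟨hdual, ?_⟩, fun h0 => hv (by rw [hωv, h0, zero_mul]), hωv, fun v z => ?_⟩
  · have := hy.isAlgebraic_field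
    have : Algebra.EssFiniteType (IntermediateField.adjoin k (Set.range y)) K :=
      Algebra.EssFiniteType.of_comp k _ K
    exact P297.finiteDimensional_of_essFinite _ K
  · rw [jac, jac, jac, ← Matrix.det_mul]
    congr 1
    ext i j
    rw [Matrix.mul_apply]
    simp only [Matrix.of_apply]
    conv_lhs => rw [← b.sum_repr (v i)]
    have h1 := map_sum (Derivation.coeFnAddMonoidHom (R := k) (A := K) (M := K))
      (fun l => b.repr (v i) l • b l) Finset.univ
    have h2 := congrFun h1 (z j)
    rw [Finset.sum_apply] at h2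
    exact h2

theorem jac_mem {S : Type} [SetLike S K] [SubringClass S K] (O : S) (v : Fin n → Derivation k K K)
    (z : Fin n → K) (b : K) (h : ∀ i j, b * v i (z j) ∈ O) : b ^ n * jac v z ∈ O := by
  classical
  have h1 : b ^ n * jac v z = (b • Matrix.of fun i j => v i (z j)).det := by
    rw [Matrix.det_smul, Fintype.card_fin, jac]
  rw [h1, Matrix.det_apply']
  refine sum_mem fun σ _ => mul_mem (intCast_mem O _) (prod_mem fun i _ => h _ _)

/-- The orders of the Jacobians are bounded below. -/
theorem jac_bdd (P : Place K) (y : Fin n → K) : ∃ N : ℤ, ∀ v : Fin n → Derivation k K K,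
    (∀ i, ∀ f ∈ P.ring, v i f ∈ P.ring) → jac v y ≠ 0 → N ≤ P.ord (jac v y) := by
  classical
  have h1 : ∀ j, ∃ b : K, b ≠ 0 ∧ b ∈ P.ring ∧ b * y j ∈ P.ring := by
    intro j
    rcases P.ring.mem_or_inv_mem (y j) with h | h
    · exact ⟨1, one_ne_zero, one_mem _, by rwa [one_mul]⟩
    · by_cases h0 : y j = 0
      · exact ⟨1, one_ne_zero, one_mem _, by rw [h0, mul_zero]; exact zero_mem _⟩
      · exact ⟨_, inv_ne_zero h0, h, by rw [inv_mul_cancel₀ h0]; exact one_mem _⟩
  choose b hb0 hb1 hb2 using h1
  have hB0 : ∏ j, b j ≠ 0 := Finset.prod_ne_zero_iff.2 fun j _ => hb0 j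
  have hB1 : ∏ j, b j ∈ P.ring := prod_mem fun j _ => hb1 j
  have hB2 : ∀ j, (∏ j, b j) * y j ∈ P.ring := by
    intro j
    rw [← Finset.prod_erase_mul _ _ (Finset.mem_univ j), mul_assoc]
    exact mul_mem (prod_mem fun j _ => hb1 j) (hb2 j)
  set B := ∏ j, b j
  refine ⟨- P.ord ((B * B) ^ n), fun v hv h0 => ?_⟩
  have h2 := jac_mem P.ring v y (B * B) fun i j => by
    have h3 : B * B * v i (y j) = B * v i (B * y j) - B * y j * v i B := by
      rw [Derivation.leibniz, smul_eq_mul, smul_eq_mul]; ring
    rw [h3]
    exact sub_mem (mul_mem hB1 (hv i _ (hB2 j))) (mul_mem (hB2 j) (hv i _ hB1))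
  have h3 := P.ord_nonneg_of_mem h2
  rw [P.ord_mul (pow_ne_zero _ (mul_ne_zero hB0 hB0)) h0] at h3
  omega

/-- The transcendence degree of the residue field of a divisorial place. -/
theorem trdeg_residue (hn : Algebra.trdeg k K = n) (P : Place K) (hP : Dvl k n P) :
    (letI := ((IsLocalRing.residue P.ring).comp
      ((algebraMap k K).codRestrict P.ring hP.1)).toAlgebra
    Algebra.trdeg k (IsLocalRing.ResidueField P.ring)) + 1 = Algebra.trdeg k K := by
  obtain ⟨hk, d, w, hd, hw, hF⟩ := hP
  let _ : Algebra k P.ring := ((algebraMap k K).codRestrict P.ring hk).toAlgebra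
  let ρ : P.ring →ₐ[k] IsLocalRing.ResidueField P.ring :=
    { IsLocalRing.residue P.ring with commutes' := fun _ => rfl }
  let ι : P.ring →ₐ[k] K := { P.ring.subtype with commutes' := fun _ => rfl }
  have hι : Function.Injective ι := Subtype.val_injective
  have hunit : ∀ a : P.ring, ρ a ≠ 0 ↔ P.val (a : K) = 1 := by
    intro a
    change IsLocalRing.residue P.ring a ≠ 0 ↔ _
    rw [IsLocalRing.residue_ne_zero_iff_isUnit]
    constructor
    · intro ha
      obtain ⟨b, hb⟩ := ha.exists_right_inv
      have h1 : (a : K) * b = 1 := congrArg (fun z : P.ring => (z : K)) hb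
      have h0 : (a : K) ≠ 0 := left_ne_zero_of_mul_eq_one h1
      have h2 := (P.ord_eq_zero_iff h0).2 ⟨a.2, by rw [← eq_inv_of_mul_eq_one_right h1]; exact b.2⟩
      rw [P.val_eq _ h0, h2, neg_zero, WithZero.exp_zero]
    · intro ha
      have h0 : (a : K) ≠ 0 := by
        intro h0
        rw [h0, map_zero] at ha
        exact zero_ne_one ha
      refine IsUnit.of_mul_eq_one ⟨(a : K)⁻¹, ?_⟩ (Subtype.ext (mul_inv_cancel₀ h0))
      rw [P.mem_ring_iff, map_inv₀, ha, inv_one]
  change Algebra.trdeg k (IsLocalRing.ResidueField P.ring) + 1 = _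
  refine le_antisymm ?_ ?_
  · obtain ⟨β, x, hx⟩ := exists_isTranscendenceBasis' k (IsLocalRing.ResidueField P.ring)
    choose x' hx' using fun b => IsLocalRing.residue_surjective (x b)
    have h1 : AlgebraicIndependent k x' := by
      refine AlgebraicIndependent.of_comp ρ ?_
      have : ρ ∘ x' = x := funext hx'
      rw [this]
      exact hx.1
    obtain ⟨t, ht0, ht1⟩ := P.exists_ord_eq_one
    have ht2 : t ∈ P.ring := by rw [← P.ord_nonneg_iff ht0]; omega
    let t' : P.ring := ⟨t, ht2⟩
    have ht3 : ρ t' = 0 := by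
      by_contra h
      rw [← Ne, hunit, P.val_eq _ ht0] at h
      have h2 : WithZero.exp (-P.ord t) = WithZero.exp 0 := h
      rw [WithZero.exp_inj] at h2
      omega
    have h2 : Transcendental (Algebra.adjoin k (Set.range x')) t' := by
      intro halg
      obtain ⟨q, hq0, hq⟩ := halg.exists_nonzero_coeff_and_aeval_eq_zero
        (mem_nonZeroDivisors_of_ne_zero fun h0 => ht0 (congrArg Subtype.val h0))
      apply hq0
      have h3 : ρ (q.coeff 0) = 0 := by
        have h4 := congrArg ρ.toRingHom hq
        have h5 : ρ.toRingHom t' = 0 := ht3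
        rw [Polynomial.aeval_def, Polynomial.hom_eval₂, h5, Polynomial.eval₂_at_zero,
          map_zero] at h4
        exact h4
      obtain ⟨F, hF⟩ : ((q.coeff 0 : Algebra.adjoin k (Set.range x')) : P.ring) ∈
          (MvPolynomial.aeval x' : MvPolynomial β k →ₐ[k] P.ring).range := by
        rw [← Algebra.adjoin_range_eq_range_aeval]
        exact (q.coeff 0).2
      have hF' : MvPolynomial.aeval x' F = (q.coeff 0 : Algebra.adjoin k (Set.range x')) := hF
      rw [← hF', MvPolynomial.comp_aeval_apply] at h3
      have h5 : (fun i => ρ (x' i)) = x := funext hx'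
      rw [h5] at h3
      rw [algebraicIndependent_iff.1 hx.1 F h3, map_zero] at hF'
      exact Subtype.ext hF'.symm
    have h3 := ((h1.option_iff_transcendental t').2 h2).map' hι
    have h4 := h3.cardinalMk_le_trdeg
    rwa [Cardinal.mk_option, hx.cardinalMk_eq_trdeg] at h4
  · have h1 : AlgebraicIndependent k (fun j => ρ ⟨w j, hw j⟩) := by
      rw [algebraicIndependent_iff]
      intro F h0
      by_contra hne
      have h2 := hF F hne
      have h3 : MvPolynomial.aeval w F = ι (MvPolynomial.aeval (fun j => (⟨w j, hw j⟩ : P.ring)) F) := by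
        rw [MvPolynomial.comp_aeval_apply]
        rfl
      rw [h3] at h2
      refine (hunit _).2 h2 ?_
      rw [MvPolynomial.comp_aeval_apply]
      exact h0
    have h2 := h1.cardinalMk_le_trdeg
    rw [Cardinal.mk_fin] at h2
    rw [hn, ← hd, Nat.cast_add, Nat.cast_one]
    gcongr

end Frame

end Vale.Agent.P270L.S
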