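import Vale.Agent.P270L.S3Atl

/-!
# P270L (S): places of the function field of a projective curve and their centres
-/

open CategoryTheory AlgebraicGeometry TopologicalSpace Order
open Vale.Agent.P299.G Vale.Agent.P289
open Vale.Agent.P297 (Place PlaceOver IsFF)

namespace Vale.Agent.P270L.S

set_option linter.unusedSectionVars false

variable {X : Scheme.{0}} [IsIntegral X] [IsNoetherian X] [X.IsSeparated] {k : Type} [Field k]
  [CharZero k] [IsAlgClosed k] [Algebra k X.functionField] [IsFF k X.functionField] {ι : Type}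
  [Fintype ι] [Nonempty ι] {x : ι → X.functionField} {U : ι → X.Opens} (h : Atl k x U)

include h

theorem krull_le (z : X) : Ring.KrullDimLE 1 (X.presheaf.stalk z) := by
  refine Ring.krullDimLE_one_iff_of_isPrime_bot.2 fun I hI0 hI => ?_
  obtain ⟨y, hy, rfl⟩ := exists_primeAt I
  obtain ⟨W, hW1, hW2⟩ := H719.exists_dominating y
  have hW : Dom W y := fun a => ⟨hW1 a, hW2 a⟩
  have hk : ∀ c : k, algebraMap k X.functionField c ∈ W := fun c => hW.mem (h.const y c)
  obtain ⟨t, ht, ht0⟩ := Submodule.exists_mem_ne_zero_of_ne_bot hI0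
  obtain ⟨P, hP⟩ := P297.exists_place (k := k) W hk (by
    rintro rfl
    refine (mem_primeAt hy t).1 ht (un_toK.1 (hW.un (toK_mem _ _) ?_ trivial))
    rw [toK_toStalk]
    exact toK_ne_zero ht0)
  subst hP
  rw [Ideal.isMaximal_iff]
  refine ⟨fun h1 => hI.ne_top ((Ideal.eq_top_iff_one _).2 h1), fun J a hJ ha haJ => ?_⟩
  obtain ⟨c, hc⟩ := P297.exists_const P hk (hW.mem (loc_mono hy (toK_mem z a)))
  obtain ⟨b, hb⟩ := h.const z c
  have h1 : a - b ∈ primeAt hy := by
    rw [mem_primeAt, ← un_toK, toK_toStalk, map_sub, hb]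
    intro hu
    rcases hc with hc | hc
    · exact hu.1 (sub_eq_zero.2 hc)
    · have h2 := P.ord_nonneg_of_mem (hW.mem hu.2.2)
      rw [P.ord_inv] at h2
      exact absurd hc (not_lt.2 (neg_nonneg.1 h2))
  have h2 : IsUnit b := by
    have hc0 : c ≠ 0 := by
      rintro rfl
      rw [map_zero, map_eq_zero_iff _ (toK_injective z)] at hb
      rw [hb, sub_zero] at h1
      exact ha h1
    rw [← un_toK, hb]
    exact ⟨(map_ne_zero _).2 hc0, h.const z c, by rw [← map_inv₀]; exact h.const z _⟩
  have h3 : b ∈ J := by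
    have := J.sub_mem haJ (hJ h1)
    rwa [sub_sub_cancel] at this
  rw [Ideal.eq_top_of_isUnit_mem J h3 h2]
  trivial

theorem exists_centre (P : PlaceOver k X.functionField) :
    ∃ z : {z : X // coheight z = 1}, Dom P.1.ring z.1 := by
  obtain ⟨z, hz⟩ := h.centre P.1.ring P.2
  refine ⟨⟨z, ?_⟩, hz⟩
  have h3 : ringKrullDim (X.presheaf.stalk z) = coheight z := ringKrullDim_stalk_eq_coheight z
  have h4 := (Ring.krullDimLE_iff (n := 1)).1 (krull_le h z)
  rw [h3] at h4
  have h5 : coheight z ≤ 1 := by exact_mod_cast h4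
  refine le_antisymm h5 ?_
  rw [Order.one_le_iff_ne_zero]
  intro h0
  rw [h0] at h3
  have h6 : Ring.KrullDimLE 0 (X.presheaf.stalk z) := by
    rw [Ring.krullDimLE_iff, h3]
    rfl
  have h7 : IsField (X.presheaf.stalk z) := Ring.KrullDimLE.isField_of_isDomain
  apply P.1.ring_ne_top
  rw [eq_top_iff]
  intro f _
  obtain ⟨a, b, hb, rfl⟩ := IsFractionRing.div_surjective (A := X.presheaf.stalk z) f
  obtain ⟨c, hc⟩ := h7.mul_inv_cancel (nonZeroDivisors.ne_zero hb)
  have h8 := un_toK.2 (IsUnit.of_mul_eq_one c hc)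
  rw [div_eq_mul_inv]
  exact hz.mem (mul_mem (toK_mem z a) h8.2.2)

/-- The centre of a place. -/
noncomputable def ctr (P : PlaceOver k X.functionField) : {z : X // coheight z = 1} :=
  (exists_centre h P).choose

theorem ctr_dom (P : PlaceOver k X.functionField) : Dom P.1.ring (ctr h P).1 :=
  (exists_centre h P).choose_spec

theorem ctr_eq_iff (P : PlaceOver k X.functionField) (z : {z : X // coheight z = 1}) :
    ctr h P = z ↔ ∀ a : X.presheaf.stalk z.1, toK z.1 a ∈ P.1.ring := by
  constructor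
  · rintro rfl a
    exact (ctr_dom h P a).1
  · intro hz
    have := krull_le h z.1
    refine Subtype.ext (h.centre_unique (ctr_dom h P) fun a => ⟨hz a, fun ha => ?_⟩)
    rw [ValuationSubring.mem_nonunits_iff_or]
    by_cases h0 : a = 0
    · left
      rw [h0, map_zero]
    · right
      intro hinv
      have h1 := dom_of_le P.1 hz h0 ha
      have h2 := P.1.ord_nonneg_of_mem hinv
      rw [P.1.ord_inv] at h2
      exact absurd h1 (by change ¬ 0 < P.1.ord (toK z.1 a); omega)

theorem conductor_at (z : X) : ∃ c : X.presheaf.stalk z, c ≠ 0 ∧ ∀ f : X.functionField,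
    IsIntegral (X.presheaf.stalk z) f → ∃ r, toK z r = toK z c * f := by
  obtain ⟨i, hi⟩ := h.cov z
  have hfr : IsFractionRing (ch k x i) X.functionField := by
    refine IsFractionRing.of_field _ _ fun f => ?_
    obtain ⟨b, h1, h2, h3⟩ := h.frac (h.gen i) (mem_loc_gen f)
    exact ⟨⟨_, h3⟩, ⟨b, h1⟩, (mul_div_cancel_left₀ f h2.1).symm⟩
  have hft : Algebra.FiniteType k (ch k x i) :=
    (Subalgebra.fg_iff_finiteType _).1 (Subalgebra.fg_def.2 ⟨_, Set.finite_range _, rfl⟩)
  obtain ⟨c, hc0, hc⟩ := exists_conductor (k := k) (R := ch k x i) (L := X.functionField)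
  obtain ⟨c', hc'⟩ := h.loc_of_mem c.2 hi
  refine ⟨c', fun h0 => hc0 (Subtype.ext (by rw [← hc', h0, map_zero]; rfl)), fun f hf => ?_⟩
  have hne : Nonempty (U i) := ⟨⟨z, hi⟩⟩
  have hloc := (h.aff i).isLocalization_stalk ⟨z, hi⟩
  let _ := TopCat.Presheaf.algebra_section_stalk X.presheaf (U := U i) ⟨z, hi⟩
  have : IsScalarTower Γ(X, U i) (X.presheaf.stalk z) X.functionField :=
    functionField_isScalarTower X (U i) ⟨z, hi⟩
  obtain ⟨s, P, hP, hPs⟩ := IsIntegral.exists_multiple_integral_of_isLocalization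
    ((h.aff i).primeIdealOf ⟨z, hi⟩).asIdeal.primeCompl f hf
  have h1 : IsIntegral (ch k x i) ((h.sec i s.1 : X.functionField) * f) :=
    ⟨P.map (h.sec i), hP.map _, by rw [Polynomial.eval₂_map]; exact hPs⟩
  obtain ⟨r, hr⟩ := hc _ h1
  have h2 : Un z (h.sec i s.1) := (h.un_sec hi _).2 s.2
  have h3 : toK z c' * f = (r : X.functionField) * (h.sec i s.1 : X.functionField)⁻¹ := by
    have h4 : (r : X.functionField) = c * ((h.sec i s.1 : X.functionField) * f) := hr
    rw [h4, hc', mul_comm (h.sec i s.1 : X.functionField) f, mul_assoc,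
      mul_inv_cancel_right₀ h2.1]
  rw [h3]
  exact mul_mem (h.loc_of_mem r.2 hi) h2.2.2

/-- **The order at a point is the sum of the orders at the places centred at this point.** -/
theorem mapDomain_ctr {u : X.functionField} (hu : u ≠ 0) (z : {z : X // coheight z = 1}) :
    Finsupp.mapDomain (ctr h) (P297.div k u) z = Scheme.ord u z.1 := by
  classical
  have hkr := krull_le h z.1
  obtain ⟨t, ht0, ht⟩ : ∃ t : X.presheaf.stalk z.1, t ≠ 0 ∧ ¬ IsUnit t := by
    by_contra hcon
    push Not at hcon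
    have h1 : IsField (X.presheaf.stalk z.1) :=
      ⟨exists_pair_ne _, mul_comm, fun {a} ha => (hcon a ha).exists_right_inv⟩
    have h2 := ringKrullDim_eq_zero_of_isField h1
    rw [ringKrullDim_stalk_eq_coheight, z.2] at h2
    exact one_ne_zero (α := WithBot ℕ∞) h2
  have hfin : {P : PlaceOver k X.functionField | ctr h P = z}.Finite :=
    (P297.finite_zeros (k := k) (toK z.1 t)).subset fun P hP =>
      dom_of_le P.1 ((ctr_eq_iff h P z).1 hP) ht0 ht
  obtain ⟨c, hc0, hc⟩ := conductor_at h z.1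
  have h1 := len_formula (k := k) (A := X.presheaf.stalk z.1) (h.const z.1) hfin.toFinset
    (fun P => by rw [hfin.mem_toFinset]; exact ctr_eq_iff h P z) hc0 hc hu
  have h2 : Scheme.ord u z.1 = WithZero.log (Ring.ordFrac (X.presheaf.stalk z.1) u) := by
    rw [Scheme.ord_eq_iff z.2 hu]
    exact (WithZero.exp_log ((map_ne_zero _).2 hu)).symm
  rw [h2, h1, P297.mapDomain_apply_finsum]
  have h3 : ∑ᶠ P : {P // ctr h P = z}, P297.div k u P.1 =
      ∑ᶠ (P : PlaceOver k X.functionField) (_ : P ∈ {P | ctr h P = z}), P.1.ord u :=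
    finsum_subtype_eq_finsum_cond (f := fun P : PlaceOver k X.functionField => P.1.ord u) _
  rw [h3, finsum_mem_eq_finite_toFinset_sum _ hfin]

theorem mapDomain_ctr_rp {L : Type} [Field L] [Algebra k L] [Algebra X.functionField L]
    [IsScalarTower k X.functionField L] [IsFF k L] [FiniteDimensional X.functionField L]
    {u : X.functionField} (hu : u ≠ 0) (z : {z : X // coheight z = 1}) :
    Finsupp.mapDomain (ctr h ∘ rp X.functionField) (P297.div k (algebraMap _ L u)) z =
      Module.finrank X.functionField L * Scheme.ord u z.1 := by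
  rw [Finsupp.mapDomain_comp, mapDomain_rp hu, Finsupp.mapDomain_smul, Finsupp.smul_apply,
    mapDomain_ctr h hu, nsmul_eq_mul]

end Vale.Agent.P270L.S
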