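import Vale.Agent.P270L.S4Gen
import Vale.Agent.P270L.S5Crv

/-!
# P270L (S): degrees on curves are differences of heights
-/

open CategoryTheory AlgebraicGeometry TopologicalSpace Order
open Vale.Agent.P299.G Vale.Agent.P289 Vale.Agent.P289.Var Vale.Agent.P289.H219
open Vale.Agent.P297 (Place PlaceOver IsFF)

namespace Vale.Agent.P270L.S

set_option linter.unusedSectionVars false

section Height

variable {k L : Type} [Field k] [CharZero k] [IsAlgClosed k] [Field L] [Algebra k L] [IsFF k L]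
  {σ : Type} [Fintype σ]

theorem exists_max (P : Place L) {z : σ → L} (hz : z ≠ 0) :
    ∃ l, z l ≠ 0 ∧ ∀ l', z l' / z l ∈ P.ring := by
  obtain ⟨l₀, h0⟩ := Function.ne_iff.1 hz
  obtain ⟨l, -, hl⟩ := Finset.exists_max_image (Finset.univ : Finset σ) (fun l => P.val (z l))
    ⟨l₀, Finset.mem_univ _⟩
  refine ⟨l, fun h1 => ?_, fun l' => ?_⟩
  · have h2 := hl l₀ (Finset.mem_univ _)
    rw [h1, map_zero, le_zero_iff, Valuation.zero_iff] at h2
    exact h0 h2
  · rw [P.mem_ring_iff, map_div₀]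
    exact div_le_one_of_le₀ (hl l' (Finset.mem_univ _)) zero_le

theorem finite_mx {z : σ → L} (hz : z ≠ 0) :
    (Function.support fun P : PlaceOver k L => mx P.1 z).Finite := by
  refine (Set.finite_iUnion fun l => P297.finite_support (k := k) (z l)).subset fun P hP => ?_
  obtain ⟨l, h0, hl⟩ := exists_max P.1 hz
  rw [Function.mem_support, mx_eq P.1 h0 hl, neg_ne_zero] at hP
  exact Set.mem_iUnion.2 ⟨l, hP⟩

theorem ht_mul {z : σ → L} (hz : z ≠ 0) {a : L} (ha : a ≠ 0) :
    ht k (fun l => a * z l) = ht k z := by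
  have h1 : ∀ P : PlaceOver k L, mx P.1 (fun l => a * z l) = mx P.1 z - P297.div k a P := by
    intro P
    obtain ⟨l, h0, hl⟩ := exists_max P.1 hz
    rw [mx_eq P.1 h0 hl, mx_eq P.1 (l := l) (mul_ne_zero ha h0) fun l' => by
      rw [mul_div_mul_left _ _ ha]; exact hl l', P.1.ord_mul ha h0, P297.div_apply]
    ring
  rw [ht, ht, finsum_congr h1, finsum_sub_distrib (finite_mx hz) (P297.div k a).hasFiniteSupport,
    ← P297.deg_eq_finsum, P297.deg_div, sub_zero]

theorem ht_const {z : σ → L} (hz : z ≠ 0) (h : ∀ l, ∃ c : k, z l = algebraMap k L c) :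
    ht k z = 0 := by
  refine finsum_eq_zero_of_forall_eq_zero fun P => ?_
  obtain ⟨l, h0, hl⟩ := exists_max P.1 hz
  obtain ⟨c, hc⟩ := h l
  rw [mx_eq P.1 h0 hl, hc, P297.ord_const, neg_zero]

end Height

variable {k : Type} [Field k] {V : Var k} (C : Curve V)

/-- The constants in the function field of a curve. -/
noncomputable instance algC : Algebra k C.C.functionField :=
  (constants (C.ι ≫ V.str)).toAlgebra

instance sepC : C.C.IsSeparated := by
  refine ⟨?_⟩
  rw [← Limits.terminal.comp_from (C.ι ≫ V.str)]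
  infer_instance

theorem exists_atlV (V : Var k) : ∃ (ι : Type) (_ : Fintype ι) (_ : Nonempty ι) (x : ι → V.K)
    (U : ι → V.X.Opens), Atl k x U := by
  obtain ⟨n, i, h1, h2⟩ := V.projective
  exact exists_atl k i V.str h2 fun _ => rfl

theorem exists_atlC : ∃ (ι : Type) (_ : Fintype ι) (_ : Nonempty ι)
    (x : ι → C.C.functionField) (U : ι → C.C.Opens), Atl k x U := by
  obtain ⟨n, i, h1, h2⟩ := V.projective
  exact exists_atl k (C.ι ≫ i) (C.ι ≫ V.str) (by rw [Category.assoc, h2]) fun _ => rfl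

instance ffC : IsFF k C.C.functionField := by
  obtain ⟨ι, _, _, x, U, h⟩ := exists_atlC C
  exact ⟨h.essFinite, C.dim_one⟩

section Res

variable {X Y : Scheme.{0}} [IsIntegral X] [IsIntegral Y] (ι : Y ⟶ X)

open Classical in
/-- The restriction of a rational function. -/
noncomputable def rs (f : X.functionField) : Y.functionField :=
  if h : f ∈ loc (ι (genericPoint Y)) then resη ι h.choose else 0

theorem rs_toK (a : X.presheaf.stalk (ι (genericPoint Y))) : rs ι (toK _ a) = resη ι a := by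
  rw [rs, dif_pos (toK_mem _ a)]
  congr 1
  exact toK_injective _ (toK_mem _ a).choose_spec

variable {ι}

theorem rs_mul {f g : X.functionField} (hf : f ∈ loc (ι (genericPoint Y)))
    (hg : g ∈ loc (ι (genericPoint Y))) : rs ι (f * g) = rs ι f * rs ι g := by
  obtain ⟨a, rfl⟩ := hf
  obtain ⟨b, rfl⟩ := hg
  rw [← map_mul, rs_toK, rs_toK, rs_toK, map_mul]

theorem rs_add {f g : X.functionField} (hf : f ∈ loc (ι (genericPoint Y)))
    (hg : g ∈ loc (ι (genericPoint Y))) : rs ι (f + g) = rs ι f + rs ι g := by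
  obtain ⟨a, rfl⟩ := hf
  obtain ⟨b, rfl⟩ := hg
  rw [← map_add, rs_toK, rs_toK, rs_toK, map_add]

theorem rs_pow {f : X.functionField} (hf : f ∈ loc (ι (genericPoint Y))) (n : ℕ) :
    rs ι (f ^ n) = rs ι f ^ n := by
  obtain ⟨a, rfl⟩ := hf
  rw [← map_pow, rs_toK, rs_toK, map_pow]

theorem rs_one : rs ι 1 = 1 := by
  rw [← map_one (toK (ι (genericPoint Y))), rs_toK, map_one]

theorem rs_zero : rs ι 0 = 0 := by
  rw [← map_zero (toK (ι (genericPoint Y))), rs_toK, map_zero]

theorem rs_ne_zero {f : X.functionField} (hf : f ∈ loc (ι (genericPoint Y))) :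
    rs ι f ≠ 0 ↔ Un (ι (genericPoint Y)) f := by
  obtain ⟨a, rfl⟩ := hf
  rw [rs_toK, resη_ne_zero_iff, un_toK]

theorem rs_loc {z : Y} {f : X.functionField} (hf : f ∈ loc (ι z)) : rs ι f ∈ loc z := by
  obtain ⟨a, rfl⟩ := hf
  rw [← toK_toStalk (spec_image ι z), rs_toK, resη_toStalk]
  exact toK_mem z _

end Res

theorem rs_const (c : k) : rs C.ι (algebraMap k V.K c) = algebraMap k C.C.functionField c := by
  rw [← toK_germ_cst V ⊤ C.pt trivial c, rs_toK]
  have h2 := Scheme.Hom.germ_stalkMap C.ι ⊤ (genericPoint C.C) trivial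
  have h3 := congrArg (fun g => g.hom (cst V.str ⊤ c)) h2
  have : Nonempty (C.ι ⁻¹ᵁ ⊤) := ⟨⟨genericPoint C.C, trivial⟩⟩
  refine h3.trans ?_
  change C.C.germToFunctionField (C.ι ⁻¹ᵁ ⊤) ((C.ι.app ⊤).hom (cst V.str ⊤ c)) = _
  rw [app_cst, germ_cst]
  rfl

theorem restricts_iff {u : V.K} {w : C.C.functionField} :
    C.Restricts u w ↔ u ∈ loc C.pt ∧ rs C.ι u = w := by
  constructor
  · rintro ⟨a, rfl, rfl⟩
    exact ⟨toK_mem _ a, rs_toK C.ι a⟩
  · rintro ⟨⟨a, rfl⟩, rfl⟩
    exact ⟨a, rfl, (rs_toK C.ι a).symm⟩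

variable {C}

theorem mx_rs {L : Type} [Field L] (j : C.C.functionField →+* L) (Q : Place L) {z : C.C}
    (hQ : ∀ a ∈ loc z, j a ∈ Q.ring) {F : V.Div} {σ : Type} [Fintype σ] {s : σ → V.K}
    (hs : Gen F s) {g f : V.K} (hg : GeneratesAt F g C.pt) (hf : GeneratesAt F f (C.ι z)) :
    mx Q (fun l => j (rs C.ι (s l / g))) = Q.ord (j (rs C.ι (g / f))) := by
  have hz := spec_image C.ι z
  obtain ⟨l, hl⟩ := hs.gen (C.ι z)
  have h1 : Un C.pt (s l / g) := un_div hg (generatesAt_of_specializes hz hl)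
  have h2 : j (rs C.ι (s l / g)) ≠ 0 := (map_ne_zero j).2 ((rs_ne_zero h1.2.1).2 h1)
  have h3 : Un C.pt (g / f) := un_div (generatesAt_of_specializes hz hf) hg
  have h4 : j (rs C.ι (g / f)) ≠ 0 := (map_ne_zero j).2 ((rs_ne_zero h3.2.1).2 h3)
  rw [mx_eq Q (l := l) h2 fun l' => ?_]
  · have h5 := un_div hf hl
    have h6 : j (rs C.ι (s l / f)) = j (rs C.ι (s l / g)) * j (rs C.ι (g / f)) := by
      rw [← map_mul, ← rs_mul h1.2.1 h3.2.1, div_mul_div_cancel₀ hg.1]
    have h7 : j (rs C.ι (s l / f)) * j (rs C.ι (s l / f)⁻¹) = 1 := by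
      rw [← map_mul, ← rs_mul (loc_mono hz h5.2.1) (loc_mono hz h5.2.2), mul_inv_cancel₀ h5.1,
        rs_one, map_one]
    have h8 := (Q.ord_eq_zero_iff (left_ne_zero_of_mul_eq_one h7)).2 ⟨hQ _ (rs_loc h5.2.1), by
      rw [← eq_inv_of_mul_eq_one_right h7]; exact hQ _ (rs_loc h5.2.2)⟩
    rw [h6, Q.ord_mul h2 h4] at h8
    omega
  · have h5 := div_mem_loc hl (hs.sec l' _)
    have h6 : j (rs C.ι (s l' / g)) = j (rs C.ι (s l' / s l)) * j (rs C.ι (s l / g)) := by
      rw [← map_mul, ← rs_mul (loc_mono hz h5) h1.2.1, div_mul_div_cancel₀ hl.1]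
    rw [h6, mul_div_cancel_right₀ _ h2]
    exact hQ _ (rs_loc h5)

variable [CharZero k] [IsAlgClosed k] {ι : Type} [Fintype ι] {x : ι → V.K} {U : ι → V.X.Opens}

/-- The point `p` factors through the curve `C`. -/
structure Over (U : ι → V.X.Opens) (p : Cv k x) (C : Curve V)
    (j : C.C.functionField →ₐ[k] p.L) : Prop where
  mem : C.pt ∈ U p.i
  eq : ∀ a : ch k x p.i, p.φ a = j (rs C.ι a)

variable (h : Atl k x U) {p : Cv k x} {j : C.C.functionField →ₐ[k] p.L} (hp : Over U p C j)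

include h hp

theorem rs_sys_ne {F : V.Div} {σ : Type} {s : σ → V.K} (hs : Gen F s) {g : V.K}
    (hg : GeneratesAt F g C.pt) : (fun l => j (rs C.ι (s l / g))) ≠ 0 := by
  obtain ⟨l, hl⟩ := hs.gen C.pt
  have h1 := un_div hg hl
  exact Function.ne_iff.2 ⟨l, (map_ne_zero j).2 ((rs_ne_zero h1.2.1).2 h1)⟩

theorem dg_eq {F : V.Div} {σ : Type} [Fintype σ] {s : σ → V.K} (hs : Gen F s) {g : V.K}
    (hg : GeneratesAt F g C.pt) : p.dg s = ht k fun l => j (rs C.ι (s l / g)) := by
  have hl := fun l => div_mem_loc hg (hs.sec l _)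
  have hne := rs_sys_ne h hp hs hg
  have key : ∀ (τ : V.K) (hτ : ∀ l, τ * s l ∈ ch k x p.i) (l : σ),
      p.φ ⟨τ * s l, hτ l⟩ = j (rs C.ι (τ * g)) * j (rs C.ι (s l / g)) := by
    intro τ hτ l
    obtain ⟨l₀, h0⟩ := hs.gen C.pt
    have h1 : τ * g ∈ loc C.pt := by
      have h2 : τ * g = τ * s l₀ * (g / s l₀) := by rw [mul_assoc, mul_div_cancel₀ _ h0.1]
      rw [h2]
      exact mul_mem (h.loc_of_mem (hτ l₀) hp.mem) (un_div h0 hg).2.1
    rw [hp.eq, ← map_mul, ← rs_mul h1 (hl l), mul_assoc, mul_div_cancel₀ _ hg.1]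
  have hex : ∃ z, p.Rs s z := by
    obtain ⟨b, h1, h2, h3⟩ := h.frac_fin hp.mem hl
    have h4 : ∀ l, b / g * s l ∈ ch k x p.i := fun l => by
      rw [div_mul_eq_mul_div, mul_div_assoc]
      exact h3 l
    refine ⟨fun l => p.φ ⟨_, h4 l⟩, ?_, b / g, h4, fun l => rfl⟩
    obtain ⟨l, h5⟩ := Function.ne_iff.1 hne
    refine Function.ne_iff.2 ⟨l, ?_⟩
    rw [key, div_mul_cancel₀ _ hg.1]
    exact mul_ne_zero ((map_ne_zero j).2 ((rs_ne_zero h2.2.1).2 h2)) h5
  rw [Cv.dg, dif_pos hex]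
  obtain ⟨h1, τ, hτ, h2⟩ := hex.choose_spec
  have h3 : hex.choose = fun l => j (rs C.ι (τ * g)) * j (rs C.ι (s l / g)) :=
    funext fun l => (h2 l).trans (key τ hτ l)
  rw [h3] at h1 ⊢
  refine ht_mul hne fun h0 => h1 (funext fun l => ?_)
  rw [h0, zero_mul]
  rfl

/-- The degree of the map of curves. -/
noncomputable def mult {L : Type} [Field L] [Algebra k L] (j : C.C.functionField →ₐ[k] L) : ℕ :=
  letI := j.toRingHom.toAlgebra
  Module.finrank C.C.functionField L

omit h hp in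
theorem finite_ext {K L : Type} [Field K] [Field L] [Algebra k K] [Algebra k L] [Algebra K L]
    [IsScalarTower k K L] [hK : IsFF k K] [hL : IsFF k L] : FiniteDimensional K L := by
  have := hL.fin
  have : Algebra.EssFiniteType K L := Algebra.EssFiniteType.of_comp k K L
  have h1 := trdeg_add_eq k K (A := L)
  rw [hK.td, hL.td] at h1
  have h2 : Algebra.trdeg K L = 0 := by
    have h3 : (1 : Cardinal) + Algebra.trdeg K L = 1 + 0 := by rw [h1, add_zero]
    exact (Cardinal.add_right_inj_of_lt_aleph0 Cardinal.one_lt_aleph0).1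
      (by rwa [add_comm, add_comm 1] at h3)
  have := trdeg_eq_zero_iff.1 h2
  exact P297.finiteDimensional_of_essFinite K L

omit h hp in
theorem mult_pos {L : Type} [Field L] [Algebra k L] [IsFF k L] (j : C.C.functionField →ₐ[k] L) :
    0 < mult j := by
  let _ := j.toRingHom.toAlgebra
  have : IsScalarTower k C.C.functionField L := IsScalarTower.of_algebraMap_eq fun c =>
    (j.commutes c).symm
  have : FiniteDimensional C.C.functionField L := finite_ext (k := k)
  exact Module.finrank_pos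

/-- **The degree is a difference of heights.** -/
theorem deg_key {H : V.Div} (hH : Gen H x) {E : V.Div} {D : Cd V.K} (hD : Gen (E + D.c • H) D.s)
    {g : V.K} {w : C.C → C.C.functionField} (hg : GeneratesAt E g C.pt)
    (hw : ∀ z : C.C, coheight z = 1 → ∃ f : V.K, GeneratesAt E f (C.ι z) ∧
      C.Restricts (g / f) (w z)) :
    (Function.support fun z : {z : C.C // coheight z = 1} => Scheme.ord (w z) z.1).Finite ∧
      p.deg D = mult j * ∑ᶠ z : {z : C.C // coheight z = 1}, Scheme.ord (w z) z.1 := by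
  obtain ⟨κ, _, _, x', U', h'⟩ := exists_atlC C
  let _ := j.toRingHom.toAlgebra
  have : IsScalarTower k C.C.functionField p.L := IsScalarTower.of_algebraMap_eq fun c =>
    (j.commutes c).symm
  have : FiniteDimensional C.C.functionField p.L := finite_ext (k := k)
  let c : PlaceOver k p.L → {z : C.C // coheight z = 1} := ctr h' ∘ rp C.C.functionField
  have hxi := gen_coord h hH hp.mem
  have hG := gen_mul hg (gen_pow hxi D.c)
  have hw0 : ∀ z : {z : C.C // coheight z = 1}, w z ≠ 0 := by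
    intro z
    obtain ⟨f, hf, h1⟩ := hw z.1 z.2
    obtain ⟨h2, h3⟩ := (restricts_iff C).1 h1
    rw [← h3, rs_ne_zero h2]
    exact un_div (generatesAt_of_specializes (spec_image C.ι z.1) hf) hg
  have h1 : ∀ Q : PlaceOver k p.L, Q.1.ord (j (w (c Q))) =
      mx Q.1 (fun l => j (rs C.ι (D.s l / (g * x p.i ^ D.c)))) -
        D.c * mx Q.1 (fun l => j (rs C.ι (x l / x p.i))) := by
    intro Q
    have hQ : ∀ a ∈ loc (c Q).1, j.toRingHom a ∈ Q.1.ring := fun a ha =>
      (mem_rp Q a).1 ((ctr_dom h' _).mem ha)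
    obtain ⟨f, hf, h2⟩ := hw _ (c Q).2
    obtain ⟨h3, h4⟩ := (restricts_iff C).1 h2
    obtain ⟨i', hi'⟩ := h.cov (C.ι (c Q).1)
    have hx' := gen_coord h hH hi'
    have h5 := mx_rs j.toRingHom Q.1 hQ hD hG (gen_mul hf (gen_pow hx' D.c))
    have h6 := mx_rs j.toRingHom Q.1 hQ hH hxi hx'
    have h7 := un_div (generatesAt_of_specializes (spec_image C.ι (c Q).1) hx') hxi
    rw [mul_div_mul_comm, ← div_pow, rs_mul h3 (pow_mem h7.2.1 _), rs_pow h7.2.1, h4, map_mul,
      map_pow, Q.1.ord_mul ((map_ne_zero _).2 (hw0 _))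
        (pow_ne_zero _ ((map_ne_zero _).2 ((rs_ne_zero h7.2.1).2 h7))), Q.1.ord_pow, ← h6] at h5
    exact eq_sub_of_add_eq h5.symm
  have hf1 := finite_mx (k := k) (rs_sys_ne h hp hD hG)
  have hf2 : (Function.support fun Q : PlaceOver k p.L =>
      (D.c : ℤ) * mx Q.1 (fun l => j (rs C.ι (x l / x p.i)))).Finite :=
    (finite_mx (k := k) (rs_sys_ne h hp hH hxi)).subset fun Q hQ => right_ne_zero_of_mul hQ
  have hfin : (Function.support fun Q : PlaceOver k p.L => Q.1.ord (j (w (c Q)))).Finite := by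
    refine (hf1.union hf2).subset fun Q hQ => ?_
    by_contra hcon
    rw [Set.mem_union, not_or, Function.notMem_support, Function.notMem_support] at hcon
    rw [Function.mem_support, h1, hcon.1, hcon.2] at hQ
    exact hQ rfl
  let Φ : PlaceOver k p.L →₀ ℤ := Finsupp.ofSupportFinite _ hfin
  have h2 : ∀ z, Finsupp.mapDomain c Φ z = mult j * Scheme.ord (w z) z.1 := by
    intro z
    rw [← show _ = (mult j : ℤ) * _ from mapDomain_ctr_rp (L := p.L) h' (hw0 z) z,
      P297.mapDomain_apply_finsum, P297.mapDomain_apply_finsum]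
    refine finsum_congr fun Q => ?_
    change Q.1.1.ord (j (w (c Q.1))) = Q.1.1.ord (j (w z))
    rw [show c Q.1 = z from Q.2]
  refine ⟨(Finsupp.mapDomain c Φ).hasFiniteSupport.subset fun z hz => ?_, ?_⟩
  · rw [Function.mem_support, h2]
    exact mul_ne_zero (Int.natCast_ne_zero.2 (mult_pos j).ne') hz
  · rw [mul_finsum, ← finsum_congr h2, ← P297.deg_eq_finsum, P297.deg_mapDomain,
      P297.deg_eq_finsum, Cv.deg, dg_eq h hp hD hG, dg_eq h hp hH hxi, ht, ht, mul_finsum,
      ← finsum_sub_distrib hf1 hf2]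
    exact finsum_congr fun Q => (h1 Q).symm

theorem deg_eq {H : V.Div} (hH : Gen H x) {E : V.Div} {D : Cd V.K} (hD : Gen (E + D.c • H) D.s)
    {e : ℤ} (he : C.IsDegree E e) : p.deg D = mult j * e := by
  obtain ⟨g, w, hg, hw, rfl⟩ := he
  exact (deg_key h hp hH hD hg hw).2

end Vale.Agent.P270L.S
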