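import Vale.Agent.P270L.S6Deg
import Vale.Agent.P270L.Stmt

/-!
# P270L (S): curves and points with values in function fields of curves, intersection numbers
-/

open CategoryTheory AlgebraicGeometry TopologicalSpace Order
open Vale.Agent.P299.G Vale.Agent.P289 Vale.Agent.P289.Var Vale.Agent.P289.H219
open Vale.Agent.P297 (Place PlaceOver IsFF)

namespace Vale.Agent.P270L.S

set_option linter.unusedSectionVars false

variable {k : Type} [Field k] [CharZero k] [IsAlgClosed k] {V : Var k}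

section Points

variable {ι : Type} [Fintype ι] {x : ι → V.K} {U : ι → V.X.Opens} (h : Atl k x U)

include h

/-- A curve gives a point. -/
theorem exists_cv (C : Curve V) : ∃ (p : Cv k x) (j : C.C.functionField →ₐ[k] p.L), Over U p C j := by
  obtain ⟨i, hi⟩ := h.cov C.pt
  have hl : ∀ a : ch k x i, (a : V.K) ∈ loc C.pt := fun a => h.loc_of_mem a.2 hi
  let φ : ch k x i →ₐ[k] C.C.functionField :=
    { toFun := fun a => rs C.ι a
      map_one' := rs_one
      map_mul' := fun a b => rs_mul (hl a) (hl b)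
      map_zero' := rs_zero
      map_add' := fun a b => rs_add (hl a) (hl b)
      commutes' := rs_const C }
  exact ⟨{ L := C.C.functionField, i := i, φ := φ }, AlgHom.id k _, hi, fun _ => rfl⟩

/-- A point is constant or factors through a curve. -/
theorem const_or_curve (p : Cv k x) : (∀ D : Cd V.K, p.deg D = 0) ∨
    ∃ (C : Curve V) (j : C.C.functionField →ₐ[k] p.L), Over U p C j := by
  by_cases hc : ∀ a, ∃ c : k, p.φ a = algebraMap k p.L c
  · left
    have h1 : ∀ (σ : Type) [Fintype σ] (s : σ → V.K), p.dg s = 0 := by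
      intro σ _ s
      rw [Cv.dg]
      split_ifs with hex
      · obtain ⟨h1, τ, hτ, h2⟩ := hex.choose_spec
        exact ht_const h1 fun l => by rw [h2]; exact hc _
      · rfl
    intro D
    rw [Cv.deg, h1, h1, mul_zero, sub_zero]
  right
  push Not at hc
  obtain ⟨a₀, ha₀⟩ := hc
  have htr : Transcendental k (p.φ a₀) :=
    (P297.const_or_transcendental (k := k) (p.φ a₀)).resolve_left fun ⟨c, h1⟩ => ha₀ c h1
  have hpr : (RingHom.ker p.φ.toRingHom).IsPrime := RingHom.ker_isPrime _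
  obtain ⟨η, hη, h1⟩ := h.point (RingHom.ker p.φ.toRingHom)
  obtain ⟨Y, ι', hint, hcl, rfl⟩ := exists_closed η
  have hloc := (h.aff p.i).isLocalization_stalk ⟨_, hη⟩
  let _ := TopCat.Presheaf.algebra_section_stalk V.X.presheaf (U := U p.i) ⟨_, hη⟩
  have hu : ∀ s : ((h.aff p.i).primeIdealOf ⟨_, hη⟩).asIdeal.primeCompl,
      IsUnit ((p.φ.toRingHom.comp (h.sec p.i)) s.1) := fun s =>
    isUnit_iff_ne_zero.2 ((h1 _).1 ((h.un_sec hη _).2 s.2))
  let ρ : V.X.presheaf.stalk (ι' (genericPoint Y)) →+* p.L := IsLocalization.lift hu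
  have hρ : ∀ (a : ch k x p.i) b, toK _ b = a → ρ b = p.φ a := by
    intro a b hb
    obtain ⟨a, rfl⟩ := h.sec_surjective _ a
    have h2 : b = V.X.presheaf.germ (U p.i) _ hη a :=
      toK_injective _ (hb.trans (toK_germ' _ (h.gen _) _ hη a).symm)
    rw [h2]
    exact IsLocalization.lift_eq hu a
  have hker : RingHom.ker (resη ι') ≤ RingHom.ker ρ := by
    intro b hb
    rw [RingHom.mem_ker] at hb ⊢
    have h2 : ¬ IsUnit b := fun h3 => (resη_ne_zero_iff ι' b).2 h3 hb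
    obtain ⟨s, hs1, hs2, hs3⟩ := h.frac hη (toK_mem _ b)
    obtain ⟨s', hs'⟩ := hs2.2.1
    have h3 : ρ (s' * b) = p.φ ⟨_, hs3⟩ := hρ _ _ (by rw [map_mul, hs'])
    have h4 : p.φ ⟨_, hs3⟩ = 0 := by
      by_contra h5
      have h6 : Un _ (s * toK _ b) := (h1 ⟨_, hs3⟩).2 h5
      rw [mul_comm] at h6
      exact h2 (un_toK.1 (un_of_mul (toK_mem _ b) hs2.2.1 h6))
    rw [h4, map_mul, hρ ⟨s, hs1⟩ s' hs'] at h3
    exact (mul_eq_zero.1 h3).resolve_left ((h1 ⟨s, hs1⟩).1 hs2)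
  have hsurj : Function.Surjective (resη ι') := ι'.stalkMap_surjective _
  let j : Y.functionField →+* p.L := (resη ι').liftOfSurjective hsurj ⟨ρ, hker⟩
  have hj : ∀ a : ch k x p.i, p.φ a = j (rs ι' a) := by
    intro a
    obtain ⟨b, hb⟩ := h.loc_of_mem a.2 hη
    rw [← hρ a b hb, ← hb, rs_toK]
    exact ((resη ι').liftOfSurjective_comp_apply hsurj ⟨ρ, hker⟩ b).symm
  let _ : Algebra k Y.functionField := (constants (ι' ≫ V.str)).toAlgebra
  have hcst : ∀ c : k, rs ι' (algebraMap k V.K c) = algebraMap k Y.functionField c := by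
    intro c
    rw [← toK_germ_cst V ⊤ (ι' (genericPoint Y)) trivial c, rs_toK]
    have h2 := Scheme.Hom.germ_stalkMap ι' ⊤ (genericPoint Y) trivial
    have h3 := congrArg (fun g => g.hom (cst V.str ⊤ c)) h2
    have : Nonempty (ι' ⁻¹ᵁ ⊤) := ⟨⟨genericPoint Y, trivial⟩⟩
    refine h3.trans ?_
    change Y.germToFunctionField (ι' ⁻¹ᵁ ⊤) ((ι'.app ⊤).hom (cst V.str ⊤ c)) = _
    rw [app_cst, germ_cst]
    rfl
  have hjc : ∀ c : k, j (algebraMap k Y.functionField c) = algebraMap k p.L c := fun c => by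
    rw [← hcst, ← p.φ.commutes c]
    exact (hj (algebraMap k _ c)).symm
  let j' : Y.functionField →ₐ[k] p.L := { j with commutes' := hjc }
  have hdim : Algebra.trdeg k Y.functionField = 1 := by
    refine le_antisymm ((trdeg_le_of_injective j' j.injective).trans (p.ff.td).le) ?_
    rw [Cardinal.one_le_iff_ne_zero, trdeg_ne_zero_iff]
    refine ⟨rs ι' a₀, fun h2 => htr ?_⟩
    rw [hj]
    exact h2.algHom j'
  exact ⟨{ C := Y, ι := ι', dim_one := hdim }, j', hη, hj⟩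

end Points

variable (C : Curve V)

theorem exists_isDegree {E : V.Div} (hE : IsCartier E) : ∃ e, C.IsDegree E e := by
  choose f hf using hE
  refine ⟨_, f C.pt, fun z => rs C.ι (f C.pt / f (C.ι z)), hf _, fun z _ => ⟨_, hf _,
    (restricts_iff C).2 ⟨?_, rfl⟩⟩, rfl⟩
  exact (un_div (generatesAt_of_specializes (spec_image C.ι z) (hf _)) (hf _)).2.1

variable {C}

theorem isDegree_unique {E : V.Div} (hE : IsCartier E) {e e' : ℤ} (h1 : C.IsDegree E e)
    (h2 : C.IsDegree E e') : e = e' := by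
  obtain ⟨ι, _, _, x, U, h⟩ := exists_atlV V
  obtain ⟨H, hH⟩ := exists_gen h (free_coord h)
  obtain ⟨D, hD⟩ := exists_rep h hH hE
  obtain ⟨p, j, hp⟩ := exists_cv h C
  have h3 := (deg_eq h hp hH hD h1).symm.trans (deg_eq h hp hH hD h2)
  exact mul_left_cancel₀ (Int.natCast_ne_zero.2 (mult_pos j).ne') h3

theorem isDegree_add {E F : V.Div} (hE : IsCartier E) (hF : IsCartier F) {e f : ℤ}
    (h1 : C.IsDegree E e) (h2 : C.IsDegree F f) : C.IsDegree (E + F) (e + f) := by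
  obtain ⟨ι, _, _, x, U, h⟩ := exists_atlV V
  obtain ⟨H, hH⟩ := exists_gen h (free_coord h)
  obtain ⟨D, hD⟩ := exists_rep h hH hE
  obtain ⟨D', hD'⟩ := exists_rep h hH hF
  obtain ⟨p, j, hp⟩ := exists_cv h C
  obtain ⟨g, w, hg, hw, rfl⟩ := h1
  obtain ⟨g', w', hg', hw', rfl⟩ := h2
  have key : ∀ {E : V.Div} {g a : V.K} {z : C.C} {v}, GeneratesAt E g C.pt →
      GeneratesAt E a (C.ι z) → C.Restricts (g / a) v → v ≠ 0 := by
    intro E g a z v h1 h2 h3
    obtain ⟨h4, rfl⟩ := (restricts_iff C).1 h3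
    exact (rs_ne_zero h4).2 (un_div (generatesAt_of_specializes (spec_image C.ι z) h2) h1)
  refine ⟨g * g', fun z => w z * w' z, gen_mul hg hg', fun z hz => ?_, ?_⟩
  · obtain ⟨a, ha, h1⟩ := hw z hz
    obtain ⟨a', ha', h2⟩ := hw' z hz
    rw [restricts_iff] at h1 h2
    refine ⟨a * a', gen_mul ha ha', (restricts_iff C).2 ?_⟩
    rw [mul_div_mul_comm, rs_mul h1.1 h2.1, h1.2, h2.2]
    exact ⟨mul_mem h1.1 h2.1, rfl⟩
  · refine (finsum_add_distrib (deg_key h hp hH hD hg hw).1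
      (deg_key h hp hH hD' hg' hw').1).symm.trans (finsum_congr fun z => ?_)
    obtain ⟨a, ha, h1⟩ := hw z.1 z.2
    obtain ⟨a', ha', h2⟩ := hw' z.1 z.2
    exact (Scheme.ord_mul (key hg ha h1) (key hg' ha' h2)).symm

theorem isDegree_nsmul {E : V.Div} (hE : IsCartier E) {e : ℤ} (h1 : C.IsDegree E e) (n : ℕ) :
    C.IsDegree (n • E) (n * e) := by
  induction n with
  | zero =>
    have h0 : ∀ q : V.X, GeneratesAt (0 • E) 1 q := fun q => by
      obtain ⟨f, hf⟩ := hE q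
      simpa using gen_pow hf 0
    refine ⟨1, fun _ => 1, h0 _, fun z _ => ⟨1, h0 _, (restricts_iff C).2 ?_⟩, ?_⟩
    · rw [div_one]
      exact ⟨one_mem _, rs_one⟩
    · rw [Nat.cast_zero, zero_mul]
      exact (finsum_eq_zero_of_forall_eq_zero fun z => ord_one' _).symm
  | succ n ih =>
    rw [succ_nsmul, Nat.cast_succ, add_mul, one_mul]
    exact isDegree_add (cartier_nsmul hE n) hE ih h1

theorem isDegree_divOf {E : V.Div} {e : ℤ} (h1 : C.IsDegree E e) {u : V.K} (hu : u ≠ 0) :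
    C.IsDegree (E - divOf u hu) e := by
  obtain ⟨g, w, hg, hw, rfl⟩ := h1
  refine ⟨g * u, w, gen_divOf hg hu, fun z hz => ?_, rfl⟩
  obtain ⟨a, ha, h1⟩ := hw z hz
  exact ⟨a * u, gen_divOf ha hu, by rwa [mul_div_mul_right _ _ hu]⟩

theorem inter_eq {D : V.QDiv} {m : ℕ} {E : V.Div} (hE : IsCartierMultiple D m E) {e : ℤ}
    (he : C.IsDegree E e) : inter D C = e / m := by
  have h0 : ∃ (m : ℕ) (E : V.Div) (e : ℤ), IsCartierMultiple D m E ∧ C.IsDegree E e ∧
      inter D C = e / m := Classical.epsilon_spec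
    (p := fun d : ℚ => ∃ (m : ℕ) (E : V.Div) (e : ℤ), IsCartierMultiple D m E ∧ C.IsDegree E e ∧
      d = e / m) ⟨_, m, E, e, hE, he, rfl⟩
  obtain ⟨m', E', e', hE', he', h1⟩ := h0
  have h2 : m' • E = m • E' := by
    ext y
    have h3 : ((m' • E) y : ℚ) = (m • E') y := by
      rw [Finsupp.smul_apply, Finsupp.smul_apply, nsmul_eq_mul, nsmul_eq_mul]
      push_cast
      rw [hE.2.1, hE'.2.1]
      ring
    exact_mod_cast h3
  have h3 := isDegree_nsmul hE.2.2 he m'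
  rw [h2] at h3
  have h4 : ((m' * e : ℤ) : ℚ) = (m * e' : ℤ) := by
    rw [isDegree_unique (cartier_nsmul hE'.2.2 m) h3 (isDegree_nsmul hE'.2.2 he' m)]
  have h5 : (m : ℚ) ≠ 0 := Nat.cast_ne_zero.2 hE.1.ne'
  have h6 : (m' : ℚ) ≠ 0 := Nat.cast_ne_zero.2 hE'.1.ne'
  push_cast at h4
  rw [h1, div_eq_div_iff h6 h5]
  linear_combination - h4

theorem mult_add {D D' : V.QDiv} {m m' : ℕ} {E E' : V.Div} (hE : IsCartierMultiple D m E)
    (hE' : IsCartierMultiple D' m' E') :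
    IsCartierMultiple (D + D') (m * m') (m' • E + m • E') := by
  refine ⟨Nat.mul_pos hE.1 hE'.1, fun y => ?_,
    cartier_add (cartier_nsmul hE.2.2 _) (cartier_nsmul hE'.2.2 _)⟩
  rw [Finsupp.add_apply, Finsupp.add_apply, Finsupp.smul_apply, Finsupp.smul_apply, nsmul_eq_mul,
    nsmul_eq_mul]
  push_cast
  rw [hE.2.1, hE'.2.1]
  ring

theorem inter_add {D D' : V.QDiv} (hD : IsQCartier D) (hD' : IsQCartier D') :
    inter (D + D') C = inter D C + inter D' C := by
  obtain ⟨m, E, hE⟩ := hD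
  obtain ⟨m', E', hE'⟩ := hD'
  obtain ⟨e, he⟩ := exists_isDegree C hE.2.2
  obtain ⟨e', he'⟩ := exists_isDegree C hE'.2.2
  rw [inter_eq hE he, inter_eq hE' he', inter_eq (mult_add hE hE')
    (isDegree_add (cartier_nsmul hE.2.2 _) (cartier_nsmul hE'.2.2 _) (isDegree_nsmul hE.2.2 he m')
      (isDegree_nsmul hE'.2.2 he' m))]
  have h5 : (m : ℚ) ≠ 0 := Nat.cast_ne_zero.2 hE.1.ne'
  have h6 : (m' : ℚ) ≠ 0 := Nat.cast_ne_zero.2 hE'.1.ne'
  push_cast
  field_simp

theorem mult_smul {D : V.QDiv} {m : ℕ} {E : V.Div} (hE : IsCartierMultiple D m E) (a b : ℕ)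
    (hb : 0 < b) : IsCartierMultiple (((a : ℚ) / b) • D) (m * b) (a • E) := by
  refine ⟨Nat.mul_pos hE.1 hb, fun y => ?_, cartier_nsmul hE.2.2 _⟩
  have h6 : (b : ℚ) ≠ 0 := Nat.cast_ne_zero.2 hb.ne'
  rw [Finsupp.smul_apply, Finsupp.smul_apply, nsmul_eq_mul, smul_eq_mul]
  push_cast
  rw [hE.2.1]
  field_simp

theorem inter_smul {D : V.QDiv} (hD : IsQCartier D) (a b : ℕ) (hb : 0 < b) :
    inter (((a : ℚ) / b) • D) C = a / b * inter D C := by
  obtain ⟨m, E, hE⟩ := hD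
  obtain ⟨e, he⟩ := exists_isDegree C hE.2.2
  rw [inter_eq hE he, inter_eq (mult_smul hE a b hb) (isDegree_nsmul hE.2.2 he a)]
  have h5 : (m : ℚ) ≠ 0 := Nat.cast_ne_zero.2 hE.1.ne'
  have h6 : (b : ℚ) ≠ 0 := Nat.cast_ne_zero.2 hb.ne'
  push_cast
  field_simp

end Vale.Agent.P270L.S
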