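import Vale.Agent.P270L.S8Main
import Vale.Agent.P270L.T.Pres
import Vale.Agent.P270L.T.Der
import Mathlib.FieldTheory.FinTrdeg

/-!
# P270L (S): canonical divisors and log discrepancies exist
-/

open CategoryTheory AlgebraicGeometry TopologicalSpace Order
open Vale.Agent.P299.G Vale.Agent.P289 Vale.Agent.P289.Var Vale.Agent.P289.H219
open Vale.Agent.P297 (Place PlaceOver IsFF)
open Vale.Agent.P285N.Brep (jac Fr)

namespace Vale.Agent.P270L.S

set_option linter.unusedSectionVars false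

variable {k : Type} [Field k] [CharZero k] [IsAlgClosed k] {V : Var k}

theorem jac_one {K : Type} [Field K] [Algebra k K] {n : ℕ} {y : Fin n → K}
    {δ : Fin n → Derivation k K K} (h : Fr y δ) : jac δ y = 1 := by
  have h1 : (Matrix.of fun i j => δ i (y j)) = 1 := by
    ext i j
    rw [Matrix.of_apply, h.dual, Matrix.one_apply]
  rw [jac, h1, Matrix.det_one]

theorem exists_form (V : Var k) : ∃ (n : ℕ) (ω : V.Form n), V.dim = n ∧ ω.Nonzero := by
  classical
  obtain ⟨ι, _, _, x, U, h⟩ := exists_atlV V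
  have := h.essFinite
  obtain ⟨n, hn⟩ := Cardinal.lt_aleph0.1 (trdeg_lt_aleph0 k V.K)
  obtain ⟨β, z, hz⟩ := exists_isTranscendenceBasis' k V.K
  have hc : Cardinal.mk β = n := by rw [hz.cardinalMk_eq_trdeg, hn]
  obtain ⟨e⟩ := Cardinal.mk_eq_nat_iff.1 hc
  have hy : IsTranscendenceBasis k (z ∘ e.symm) := hz.comp_equiv e.symm
  have := hy.isAlgebraic_field
  have : Algebra.EssFiniteType (IntermediateField.adjoin k (Set.range (z ∘ e.symm))) V.K :=
    Algebra.EssFiniteType.of_comp k _ V.K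
  obtain ⟨δ, hδ⟩ := der.ex k V.K n _ hy.1 (P297.finiteDimensional_of_essFinite _ V.K)
  let ev : V.Der →ₗ[V.K] (Fin n → V.K) :=
    { toFun := fun D j => D ((z ∘ e.symm) j)
      map_add' := fun _ _ => rfl
      map_smul' := fun _ _ => rfl }
  refine ⟨n, Matrix.detRowAlternating.compLinearMap ev, hn, fun h0 => ?_⟩
  have h3 : jac δ (z ∘ e.symm) = 0 := congrArg (fun ω : V.Form n => ω δ) h0
  rw [jac_one hδ] at h3
  exact one_ne_zero h3

theorem exists_canonical {n : ℕ} (hn : V.dim = n) {ω : V.Form n} (hω0 : ω.Nonzero) :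
    ∃ κ, IsDivisorOf κ ω := by
  classical
  obtain ⟨ι, _, _, x, U, h⟩ := exists_atlV V
  have := h.essFinite
  obtain ⟨y, δ, g, hfr, hg, hω, -⟩ := exists_frame (k := k) (K := V.K) hn ω hω0
  have h1 : ∀ i, ∃ b ∈ ch k x i, b ≠ 0 ∧ (∀ a, b * y a ∈ ch k x i) ∧
      ∀ a, ∀ f ∈ ch k x i, b * δ a f ∈ ch k x i := by
    intro i
    obtain ⟨b, h1, h2, h3⟩ := h.frac_fin (h.gen i) (σ := Fin n ⊕ Fin n × ι)
      (f := Sum.elim y fun q => δ q.1 (x q.2 / x i)) fun _ => mem_loc_gen _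
    refine ⟨b, h1, h2.1, fun a => h3 (.inl a), fun a f hf => ?_⟩
    induction hf using Algebra.adjoin_induction with
    | mem f hf =>
      obtain ⟨j, rfl⟩ := hf
      exact h3 (.inr (a, j))
    | algebraMap c => rw [Derivation.map_algebraMap, mul_zero]; exact zero_mem _
    | add f f' _ _ hf hf' => rw [map_add, mul_add]; exact add_mem hf hf'
    | mul f f' h4 h5 hf hf' =>
      rw [Derivation.leibniz, smul_eq_mul, smul_eq_mul, mul_add, mul_left_comm, mul_left_comm b]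
      exact add_mem (mul_mem h4 hf') (mul_mem h5 hf)
  choose b hb1 hb0 hb2 hb3 using h1
  have h2 : ∀ Y : V.PrimeDiv, ∃ r : ℤ, IsLeast {m : ℤ | ∃ v : Fin n → V.Der,
      (∀ a, IsRegularFieldAt (v a) Y.1) ∧ ω.value v ≠ 0 ∧ ordAlong (ω.value v) Y = m} r ∧
      (ordAlong g Y = 0 → (∀ i, ordAlong (b i) Y = 0) → r = 0) := by
    intro Y
    obtain ⟨i, hi⟩ := h.cov Y.1
    have hl : ∀ {f}, f ∈ ch k x i → f ∈ loc Y.1 := fun hf => h.loc_of_mem hf hi
    have h3 : ∀ m : ℤ, (∃ v : Fin n → V.Der, (∀ a, IsRegularFieldAt (v a) Y.1) ∧ ω.value v ≠ 0 ∧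
        ordAlong (ω.value v) Y = m) → ordAlong g Y - n * (2 * ordAlong (b i) Y) ≤ m := by
      rintro _ ⟨v, h1, h2, rfl⟩
      have h3 : ω.value v = g * jac v y := hω v
      rw [h3] at h2 ⊢
      have h4 := jac_mem (loc Y.1) v y (b i * b i) fun a j => by
        have h5 : b i * b i * v a (y j) = b i * v a (b i * y j) - b i * y j * v a (b i) := by
          rw [Derivation.leibniz, smul_eq_mul, smul_eq_mul]; ring
        rw [h5]
        exact sub_mem (mul_mem (hl (hb1 i)) (h1 a _ (hl (hb2 i j))))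
          (mul_mem (hl (hb2 i j)) (h1 a _ (hl (hb1 i))))
      have h5 := ord_loc (y := Y) h4 specializes_rfl
      have h6 := mul_ne_zero (hb0 i) (hb0 i)
      rw [ordAlong_mul (pow_ne_zero _ h6) (right_ne_zero_of_mul h2), ordAlong_pow h6,
        ordAlong_mul (hb0 i) (hb0 i)] at h5
      rw [ordAlong_mul hg (right_ne_zero_of_mul h2)]
      linarith
    have h4 : ω.value (fun a => b i • δ a) = g * b i ^ n := by
      have h5 : ω (fun a => b i • δ a) = _ := ω.map_smul_univ (fun _ => b i) δ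
      refine h5.trans ?_
      rw [hω, jac_one hfr, Finset.prod_const, Finset.card_univ, Fintype.card_fin, smul_eq_mul,
        mul_one, mul_comm]
    have h5 : ∃ v : Fin n → V.Der, (∀ a, IsRegularFieldAt (v a) Y.1) ∧ ω.value v ≠ 0 ∧
        ordAlong (ω.value v) Y = ordAlong g Y + n * ordAlong (b i) Y := by
      refine ⟨fun a => b i • δ a, fun a f hf => ?_, ?_, ?_⟩
      · obtain ⟨s, h1, h2, h3⟩ := h.frac hi hf
        have h6 : b i * δ a f = s⁻¹ * (b i * δ a (s * f) - f * (b i * δ a s)) := by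
          rw [Derivation.leibniz, smul_eq_mul, smul_eq_mul]
          have := h2.1
          field_simp
          ring
        change b i * δ a f ∈ loc Y.1
        rw [h6]
        exact mul_mem h2.2.2 (sub_mem (hl (hb3 i a _ h3)) (mul_mem hf (hl (hb3 i a _ h1))))
      · rw [h4]
        exact mul_ne_zero hg (pow_ne_zero _ (hb0 i))
      · rw [h4, ordAlong_mul hg (pow_ne_zero _ (hb0 i)), ordAlong_pow (hb0 i)]
    obtain ⟨r, h6, h7⟩ := Int.exists_least_of_bdd ⟨_, h3⟩ ⟨_, h5⟩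
    refine ⟨r, ⟨h6, h7⟩, fun h8 h9 => ?_⟩
    have h10 := h3 r h6
    have h11 := h7 _ h5
    rw [h8, h9] at h10 h11
    omega
  choose r hr1 hr2 using h2
  refine ⟨Finsupp.ofSupportFinite r (((finite_ordAlong hg).union
    (Set.finite_iUnion fun i => finite_ordAlong (hb0 i))).subset fun Y hY => ?_), hr1⟩
  by_contra hcon
  rw [Set.mem_union, not_or, Set.mem_iUnion, not_exists] at hcon
  exact hY (hr2 Y (not_not.1 hcon.1) fun i => not_not.1 (hcon.2 i))

theorem dvl_of {n : ℕ} (hn : V.dim = n) (F : DivisorOver V) : Dvl k n F.place := by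
  obtain ⟨P, hk, hF⟩ := F
  let _ : Algebra k P.ring := ((algebraMap k V.K).codRestrict P.ring hk).toAlgebra
  let ρ : P.ring →ₐ[k] IsLocalRing.ResidueField P.ring :=
    { IsLocalRing.residue P.ring with commutes' := fun _ => rfl }
  let ι : P.ring →ₐ[k] V.K := { P.ring.subtype with commutes' := fun _ => rfl }
  have h1 : Algebra.trdeg k (IsLocalRing.ResidueField P.ring) + 1 = n := hF.trans hn
  obtain ⟨d, hd⟩ := Cardinal.lt_aleph0.1 (lt_of_le_of_lt (self_le_add_right _ 1)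
    (h1 ▸ Cardinal.natCast_lt_aleph0 (n := n)))
  obtain ⟨β, z, hz⟩ := exists_isTranscendenceBasis' k (IsLocalRing.ResidueField P.ring)
  have hc : Cardinal.mk β = d := by rw [hz.cardinalMk_eq_trdeg, hd]
  obtain ⟨e⟩ := Cardinal.mk_eq_nat_iff.1 hc
  choose w hw using fun j : Fin d => IsLocalRing.residue_surjective (z (e.symm j))
  refine ⟨hk, d, fun j => w j, by rw [hd] at h1; exact_mod_cast h1, fun j => (w j).2,
    fun G hG => ?_⟩
  have h2 : ρ (MvPolynomial.aeval w G) ≠ 0 := by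
    rw [MvPolynomial.comp_aeval_apply, ← map_zero (MvPolynomial.aeval (R := k) fun j => ρ (w j))]
    have h3 : (fun j => ρ (w j)) = z ∘ e.symm := funext hw
    rw [h3]
    exact fun h4 => hG ((hz.comp_equiv e.symm).1 h4)
  have h3 : IsUnit (MvPolynomial.aeval w G) := (IsLocalRing.residue_ne_zero_iff_isUnit _).1 h2
  have h4 : MvPolynomial.aeval (fun j => (w j : V.K)) G = (MvPolynomial.aeval w G : P.ring) :=
    (MvPolynomial.comp_aeval_apply w ι G).symm
  obtain ⟨c, hc⟩ := h3.exists_right_inv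
  have h5 := congrArg (fun z : P.ring => (z : V.K)) hc
  have h0 := left_ne_zero_of_mul_eq_one h5
  have h6 := (P.ord_eq_zero_iff h0).2
    ⟨Subtype.prop _, by rw [← eq_inv_of_mul_eq_one_right h5]; exact c.2⟩
  change P.val _ = 1
  rw [h4, P.val_eq _ h0, h6, neg_zero, WithZero.exp_zero]

theorem exists_logDisc {n : ℕ} (hn : V.dim = n) {ω : V.Form n} (hω0 : ω.Nonzero) {D : V.QDiv}
    (hD : IsQCartier D) (F : DivisorOver V) : ∃! a, F.IsLogDiscrepancy ω D a := by
  obtain ⟨ι, _, _, x, U, h⟩ := exists_atlV V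
  have := h.essFinite
  obtain ⟨y, δ, g, hfr, hg, hω, hch⟩ := exists_frame (k := k) (K := V.K) hn ω hω0
  obtain ⟨q, E, hE⟩ := hD
  obtain ⟨p, hp⟩ := h.centre F.place.ring F.const
  obtain ⟨f, hf⟩ := hE.2.2 p
  obtain ⟨N, hN⟩ := jac_bdd (k := k) F.place y
  obtain ⟨z, v, h1, -, -, h2⟩ := pres_of der k V.K n y δ hfr F.place (dvl_of hn F)
  have h3 : jac v y ≠ 0 := left_ne_zero_of_mul_eq_one ((hch v z).symm.trans (jac_one h1))
  obtain ⟨r, h4, h5⟩ := Int.exists_least_of_bdd (P := fun m : ℤ => ∃ v : Fin n → V.Der,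
    (∀ i, ∀ f ∈ F.place.ring, applyDer (v i) f ∈ F.place.ring) ∧ ω.value v ≠ 0 ∧
      F.place.ord (ω.value v) = m)
    ⟨F.place.ord g + N, by
      rintro _ ⟨v, h1, h2, rfl⟩
      have h3 : ω.value v = g * jac v y := hω v
      rw [h3] at h2 ⊢
      have h4 := hN v h1 (right_ne_zero_of_mul h2)
      rw [F.place.ord_mul hg (right_ne_zero_of_mul h2)]
      omega⟩ ⟨_, v, h2, by rw [show ω.value v = _ from hω v]; exact mul_ne_zero hg h3, rfl⟩
  refine ⟨_, ⟨r, _, ⟨h4, h5⟩, ⟨q, E, p, f, hE, hp, hf, rfl⟩, rfl⟩, ?_⟩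
  rintro _ ⟨r', _, hr', ⟨q', E', p', f', hE', hp', hf', rfl⟩, rfl⟩
  obtain rfl : p' = p := h.centre_unique hp' hp
  have h6 : q' • E = q • E' := by
    ext y
    have h3 : ((q' • E) y : ℚ) = (q • E') y := by
      rw [Finsupp.smul_apply, Finsupp.smul_apply, nsmul_eq_mul, nsmul_eq_mul]
      push_cast
      rw [hE.2.1, hE'.2.1]
      ring
    exact_mod_cast h3
  have h7 := un_div (h6 ▸ gen_pow hf q') (gen_pow hf' q)
  have h8 := (F.place.ord_eq_zero_iff h7.1).2 ⟨Dom.mem hp h7.2.1, Dom.mem hp h7.2.2⟩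
  rw [div_eq_mul_inv, F.place.ord_mul (pow_ne_zero _ hf'.1) (inv_ne_zero (pow_ne_zero _ hf.1)),
    F.place.ord_inv, F.place.ord_pow, F.place.ord_pow] at h8
  have h9 : (q : ℚ) * F.place.ord f' + - (q' * F.place.ord f) = 0 := by exact_mod_cast h8
  have h10 : (q : ℚ) ≠ 0 := Nat.cast_ne_zero.2 hE.1.ne'
  have h11 : (q' : ℚ) ≠ 0 := Nat.cast_ne_zero.2 hE'.1.ne'
  rw [hr'.unique ⟨h4, h5⟩, F.place.ord_inv, F.place.ord_inv, sub_right_inj,
    div_eq_div_iff h11 h10]
  push_cast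
  linear_combination - h9

end Vale.Agent.P270L.S
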