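import Vale.Agent.P270L.FF
import Mathlib.RingTheory.LinearDisjoint

/-!
# P270L, block T: change of the ground field (definitions and statements of the rows)
-/

open Set IntermediateField
open Vale.Agent.P297 (Place PlaceOver IsFF)
open Vale.Agent.P285N.Brep (jac Fr)

noncomputable section

namespace Vale.Agent.P270L

/-- the image of a family -/
def up {K : Type} (K' : Type) [Field K] [Field K'] [Algebra K K'] {ι : Type} (x : ι → K) : ι → K' :=
  fun i => algebraMap K K' (x i)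

/-- the image of a divisor -/
def Cd.up {K : Type} (K' : Type) [Field K] [Field K'] [Algebra K K'] (D : Cd K) : Cd K' :=
  ⟨D.σ, P270L.up K' D.s, D.c⟩

/-- `s * s'` generates the same sheaf as the monomials of degree `c` in `x` -/
def Cmp (k : Type) {K : Type} [Field k] [Field K] [Algebra k K] {ι σ σ' : Type} [Fintype σ]
    [Fintype σ'] (x : ι → K) (s : σ → K) (s' : σ' → K) (c : ℕ) : Prop :=
  ∀ i, (∀ l m, s l * s' m / x i ^ c ∈ ch k x i) ∧ ∃ a : σ → σ' → K, (∀ l m, a l m ∈ ch k x i) ∧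
    ∑ l, ∑ m, a l m * (s l * s' m / x i ^ c) = 1

/-- a place of `k'` with values in `k` -/
structure Wp (k k' : Type) [Field k] [Field k'] [Algebra k k'] where
  W : Subalgebra k k'
  tot : ∀ c, c ∈ W ∨ c⁻¹ ∈ W
  ρ : W →ₐ[k] k

/-- a reduction of `L'` to finitely many fields over `k` -/
structure Red (k k' L' : Type) [Field k] [Field k'] [Field L'] [Algebra k k'] [Algebra k' L']
    [Algebra k L'] : Type 1 extends Wp k k' where
  B : Subalgebra k L'
  hW : ∀ w : W, algebraMap k' L' w ∈ B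
  J : Type
  [fJ : Fintype J]
  L : J → Type
  [fd : ∀ j, Field (L j)]
  [al : ∀ j, Algebra k (L j)]
  r : ∀ j, B →ₐ[k] L j
  hr : ∀ j w, r j ⟨_, hW w⟩ = algebraMap k (L j) (ρ w)
  on : ∀ v : ∀ j, L j, ∃ b, ∀ j, r j b = v j

attribute [instance] Red.fJ Red.fd Red.al

section bc

variable (k k' K K' : Type) [Field k] [Field k'] [Field K] [Field K'] [Algebra k k'] [Algebra k K]
  [Algebra k K'] [Algebra k' K'] [Algebra K K'] [IsScalarTower k K K'] [IsScalarTower k k' K']

/-- the ring generated by `k'` and the image of `A` -/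
def ex (A : Set K) : Subalgebra k' K' := Algebra.adjoin k' (algebraMap K K' '' A)

/-- `K'` is the field of fractions of `K ⊗ k'` -/
structure BC : Prop where
  ld : (IsScalarTower.toAlgHom k K K').range.LinearDisjoint (IsScalarTower.toAlgHom k k' K').range
  gen : ∀ f : K', ∃ b ∈ ex k' K K' univ, b ≠ 0 ∧ b * f ∈ ex k' K K' univ

end bc

/-- `p'` is the point `p` after the extension of the constants -/
def Cv.Up {k k' K K' : Type} [Field k] [Field k'] [Field K] [Field K'] [Algebra k k'] [Algebra k K]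
    [Algebra k' K'] [Algebra K K'] {ι : Type} {x : ι → K} (p : Cv k x) (p' : Cv k' (up K' x)) :
    Prop :=
  ∃ (_ : Algebra k p'.L) (_ : Algebra p.L p'.L) (_ : IsScalarTower k p.L p'.L)
    (_ : IsScalarTower k k' p'.L), BC k k' p.L p'.L ∧ p'.i = p.i ∧
    ∀ f (h : f ∈ ch k x p.i) (h' : algebraMap K K' f ∈ ch k' (up K' x) p'.i),
      p'.φ ⟨_, h'⟩ = algebraMap p.L p'.L (p.φ ⟨f, h⟩)

/-- a statement for all extensions of algebraically closed constant fields -/
def ForB (P : ∀ (k k' K K' : Type) [Field k] [Field k'] [Field K] [Field K'] [Algebra k k']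
    [Algebra k K] [Algebra k K'] [Algebra k' K'] [Algebra K K'], Prop) : Prop :=
  ∀ (k k' K K' : Type) [Field k] [Field k'] [Field K] [Field K'] [Algebra k k'] [Algebra k K]
    [Algebra k K'] [Algebra k' K'] [Algebra K K'] [IsScalarTower k K K'] [IsScalarTower k k' K']
    [IsAlgClosed k] [IsAlgClosed k'] [CharZero k], BC k k' K K' → P k k' K K'

/-- a statement for all fields over an algebraically closed field of characteristic zero -/
def ForK (P : ∀ (k K : Type) [Field k] [Field K] [Algebra k K], Prop) : Prop :=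
  ∀ (k K : Type) [Field k] [Field K] [Algebra k K] [IsAlgClosed k] [CharZero k], P k K

/-! ### one ground field -/

/-- **HG**: the height is the degree of the ratio of two general linear combinations -/
structure HG : Prop where
  nn : ForK fun k L _ _ _ => IsFF k L → ∀ (σ : Type) [Fintype σ] (z : σ → L), 0 ≤ ht k z
  smul : ForK fun k L _ _ _ => IsFF k L → ∀ (σ : Type) [Fintype σ] (z : σ → L) (c : L), c ≠ 0 →
    ht k (fun l => c * z l) = ht k z
  mul : ForK fun k L _ _ _ => IsFF k L → ∀ (σ σ' : Type) [Fintype σ] [Fintype σ'] (z : σ → L)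
    (z' : σ' → L), z ≠ 0 → z' ≠ 0 → ht k (fun l : σ × σ' => z l.1 * z' l.2) = ht k z + ht k z'
  le : ForK fun k L _ _ _ => IsFF k L → ∀ (σ σ' : Type) [Fintype σ] [Fintype σ'] (z : σ → L)
    (z' : σ' → L), z' ≠ 0 → (∀ l, z' l ∈ Submodule.span k (range z)) → ht k z' ≤ ht k z
  deg : ForK fun k L _ _ _ => IsFF k L → ∀ t : L, Transcendental k t →
    ht k ![1, t] = Module.finrank k⟮t⟯ L
  gen : ∀ (k₀ k : Type) [Field k₀] [Field k] [Algebra k₀ k] [IsAlgClosed k] [CharZero k₀]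
    (J σ : Type) [Fintype J] [Fintype σ] (L : J → Type) [∀ j, Field (L j)] [∀ j, Algebra k (L j)]
    [∀ j, IsFF k (L j)] (z : ∀ j, σ → L j), (∀ j, z j ≠ 0) → ∃ a b : σ → k₀, ∀ j,
      ∑ l, algebraMap k₀ k (b l) • z j l ≠ 0 ∧
      ht k ![∑ l, algebraMap k₀ k (b l) • z j l, ∑ l, algebraMap k₀ k (a l) • z j l] = ht k (z j)

/-- **DG**: the degree of a free system -/
structure DG : Prop where
  eq : ForK fun k K _ _ _ => ∀ (ι σ : Type) [Fintype σ] (x : ι → K) (p : Cv k x) (s : σ → K)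
    (z : σ → p.L), p.Rs s z → p.dg s = ht k z
  ex : ForK fun k K _ _ _ => ∀ (ι σ : Type) [Fintype σ] (x : ι → K) (p : Cv k x) (s : σ → K),
    Free k x s → ∃ z, p.Rs s z
  cmp : ForK fun k K _ _ _ => ∀ (ι σ : Type) [Fintype ι] [Fintype σ] (x : ι → K) (s : σ → K),
    (∀ i, x i ≠ 0) → Free k x s → ∃ (σ' : Type) (_ : Fintype σ') (s' : σ' → K) (c : ℕ),
      Cmp k x s s' c
  add : ForK fun k K _ _ _ => ∀ (ι σ σ' : Type) [Fintype ι] [Fintype σ] [Fintype σ'] (x : ι → K)
    (s : σ → K) (s' : σ' → K) (c : ℕ), (∀ i, x i ≠ 0) → Cmp k x s s' c → Free k x s ∧ Free k x s' ∧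
      ∀ p : Cv k x, p.dg s + p.dg s' = c * p.dg x

/-- **DER**: existence and uniqueness of derivations -/
structure DER : Prop where
  ex : ∀ (k K : Type) [Field k] [Field K] [Algebra k K] [CharZero k] (n : ℕ) (y : Fin n → K),
    AlgebraicIndependent k y → FiniteDimensional (adjoin k (range y)) K → ∃ δ, Fr (k := k) y δ
  un : ∀ (k K M : Type) [Field k] [Field K] [Algebra k K] [CharZero k] [AddCommGroup M]
    [Module K M] [Module k M] [IsScalarTower k K M] (n : ℕ) (y : Fin n → K)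
    (δ : Fin n → Derivation k K K), Fr y δ → ∀ (E : Derivation k K M) f,
      E f = ∑ i, δ i f • E (y i)

/-- **PRES**: coordinates adapted to a divisorial place -/
def PRES : Prop := ∀ (k K : Type) [Field k] [Field K] [Algebra k K] [CharZero k] (n : ℕ)
  (y : Fin n → K) (δ : Fin n → Derivation k K K), Fr y δ → ∀ P : Place K, Dvl k n P →
  ∃ (z : Fin n → K) (D : Fin n → Derivation k K K), Fr z D ∧ (∀ j, z j ∈ P.ring) ∧
    (∃ j, P.ord (z j) = 1) ∧ ∀ j, ∀ f ∈ P.ring, D j f ∈ P.ring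

/-! ### two ground fields -/

/-- **EMB**: a countable field of characteristic zero is a subfield of `ℂ` -/
def EMB : Prop := ∀ (k : Type) [Field k] [CharZero k] [Countable k], Nonempty (k →+* ℂ)

/-- **WEX**: places finite at finitely many elements -/
def WEX : Prop := ∀ (k k' : Type) [Field k] [Field k'] [Algebra k k'] [IsAlgClosed k]
  (S : Set k'), S.Finite → ∃ w : Wp k k', S ⊆ w.W

/-- **EXU**: the extension of the constants exists -/
def EXU : Prop := ∀ (k k' K : Type) [Field k] [Field k'] [Field K] [Algebra k k'] [Algebra k K]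
  [IsAlgClosed k] [CharZero k], ∃ (K' : Type) (_ : Field K') (_ : Algebra k K') (_ : Algebra k' K')
    (_ : Algebra K K') (_ : IsScalarTower k K K') (_ : IsScalarTower k k' K'), BC k k' K K'

/-- **EXD**: a function field with finitely many elements comes from a countable ground field -/
def EXD : Prop := ForK fun k' K' _ _ _ => ∀ (n : ℕ) (y' : Fin n → K'),
  FiniteDimensional (adjoin k' (range y')) K' → ∀ S : Set K', S.Finite →
  ∃ (k K : Type) (_ : Field k) (_ : Field K) (_ : Algebra k k') (_ : Algebra k K)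
    (_ : Algebra k K') (_ : Algebra K K') (_ : IsScalarTower k K K') (_ : IsScalarTower k k' K'),
    IsAlgClosed k ∧ Countable k ∧ BC k k' K K' ∧ S ⊆ range (algebraMap K K') ∧
      ∃ y : Fin n → K, up K' y = y' ∧ FiniteDimensional (adjoin k (range y)) K

/-- **LIN**: linear algebra of the extension of the constants -/
structure LIN : Prop where
  proj : ForB fun k k' K K' _ _ _ _ _ _ _ _ _ => ∀ μ : k' →ₗ[k] k, ∃ π : K' →ₗ[K] K,
    ∀ c, π (algebraMap k' K' c) = algebraMap k K (μ c)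
  sep : ForB fun k k' K K' _ _ _ _ _ _ _ _ _ => ∀ b ∈ ex k' K K' univ, b ≠ 0 →
    ∃ (μ : k' →ₗ[k] k) (π : K' →ₗ[K] K), (∀ c, π (algebraMap k' K' c) = algebraMap k K (μ c)) ∧
      π b ≠ 0
  mem : ForB fun k k' K K' _ _ _ _ _ _ _ _ _ => ∀ (μ : k' →ₗ[k] k) (π : K' →ₗ[K] K),
    (∀ c, π (algebraMap k' K' c) = algebraMap k K (μ c)) → ∀ A : Subalgebra k K,
      ∀ f ∈ ex k' K K' A, π f ∈ A
  ch : ForB fun k k' K K' _ _ _ _ _ _ _ _ _ => ∀ (ι : Type) (x : ι → K) i,
    ch k' (up K' x) i = ex k' K K' (ch k x i)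
  lift : ForB fun k k' K K' _ _ _ _ _ _ _ _ _ => ∀ (A : Subalgebra k K) (R : Subalgebra k k')
    (E : Type) [CommRing E] [Algebra k E] (f : A →ₐ[k] E) (g : R →ₐ[k] E),
    ∃ h : Algebra.adjoin k (algebraMap K K' '' A ∪ algebraMap k' K' '' R) →ₐ[k] E,
      (∀ (a : A) ha, h ⟨algebraMap K K' a, ha⟩ = f a) ∧ ∀ (c : R) hc, h ⟨algebraMap k' K' c, hc⟩ = g c
  ai : ForB fun k k' K K' _ _ _ _ _ _ _ _ _ => ∀ (ι : Type) (y : ι → K),
    AlgebraicIndependent k y → AlgebraicIndependent k' (up K' y)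
  fin : ForB fun k k' K K' _ _ _ _ _ _ _ _ _ => ∀ (ι : Type) (y : ι → K),
    FiniteDimensional (adjoin k (range y)) K → FiniteDimensional (adjoin k' (range (up K' y))) K' ∧
      Module.finrank (adjoin k' (range (up K' y))) K' ≤ Module.finrank (adjoin k (range y)) K

/-- **FRU**: frames go up -/
def FRU : Prop := ForB fun k k' K K' _ _ _ _ _ _ _ _ _ => ∀ (n : ℕ) (y : Fin n → K)
  (δ : Fin n → Derivation k K K), Fr y δ → ∃ δ' : Fin n → Derivation k' K' K', Fr (up K' y) δ' ∧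
    ∀ j f, δ' j (algebraMap K K' f) = algebraMap K K' (δ j f)

/-- **MDU**: normal models go up -/
def MDU : Prop := ForB fun k k' K K' _ _ _ _ _ _ _ _ _ => ∀ (n : ℕ) (y : Fin n → K),
  AlgebraicIndependent k y → FiniteDimensional (adjoin k (range y)) K → ∀ (ι : Type) (x : ι → K),
    Model k x → Model k' (up K' x)

/-- **LDN**: linear certificates go up and down -/
structure LDN : Prop where
  md : ForB fun k k' K K' _ _ _ _ _ _ _ _ _ => ∀ (ι : Type) (x : ι → K),
    Model k' (up K' x) → Model k x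
  free : ForB fun k k' K K' _ _ _ _ _ _ _ _ _ => ∀ (ι σ : Type) [Fintype σ] (x : ι → K)
    (s : σ → K), Free k' (up K' x) (up K' s) ↔ Free k x s
  sp : ForB fun k k' K K' _ _ _ _ _ _ _ _ _ => ∀ (ι σ : Type) (x : ι → K) i (s : σ → K) f,
    Sp k' (up K' x) i (up K' s) (algebraMap K K' f) ↔ Sp k x i s f

/-- **SEMI**: the height does not go up under reduction -/
def SEMI : Prop := ∀ (k k' L' : Type) [Field k] [Field k'] [Field L'] [Algebra k k'] [Algebra k' L']
  [Algebra k L'] [IsScalarTower k k' L'] [IsAlgClosed k] [IsAlgClosed k'] [CharZero k] [IsFF k' L']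
  (R : Red k k' L'), (∀ j, IsFF k (R.L j)) → ∀ (σ : Type) [Fintype σ] (z : σ → R.B),
  (∀ j, (fun l => R.r j (z l)) ≠ 0) →
    ∑ j, ht k (fun l => R.r j (z l)) ≤ ht k' fun l => (z l : L')

/-- **GOOD**: a good reduction -/
def GOOD : Prop := ∀ (k k' L' : Type) [Field k] [Field k'] [Field L'] [Algebra k k'] [Algebra k' L']
  [Algebra k L'] [IsScalarTower k k' L'] [IsAlgClosed k] [CharZero k] (t : L'),
  Transcendental k' t → FiniteDimensional k'⟮t⟯ L' → ∀ S : Set L', S.Finite →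
  ∃ (R : Red k k' L') (h : t ∈ R.B), S ⊆ R.B ∧ (∀ j, Transcendental k (R.r j ⟨t, h⟩) ∧
    FiniteDimensional k⟮R.r j ⟨t, h⟩⟯ (R.L j)) ∧
    ∑ j, Module.finrank k⟮R.r j ⟨t, h⟩⟯ (R.L j) = Module.finrank k'⟮t⟯ L'

/-- **SPEC**: curves specialise -/
def SPEC : Prop := ForB fun k k' K K' _ _ _ _ _ _ _ _ _ => ∀ (ι : Type) [Fintype ι] (x : ι → K),
  (∀ i, x i ≠ 0) → ∀ p' : Cv k' (up K' x), ∃ (J : Type) (_ : Fintype J) (p : J → Cv k x),
    ∀ (σ : Type) [Fintype σ] (s : σ → K), Free k x s → p'.dg (up K' s) = ∑ j, (p j).dg s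

/-- **HTB**: the height does not change under an extension of the constants -/
def HTB : Prop := ForB fun k k' L L' _ _ _ _ _ _ _ _ _ => IsFF k L → IsFF k' L' ∧
  ∀ (σ : Type) [Fintype σ] (z : σ → L), ht k' (up L' z) = ht k z

/-- **CBC**: curves go up -/
def CBC : Prop := ForB fun k k' K K' _ _ _ _ _ _ _ _ _ => ∀ (ι : Type) (x : ι → K) (p : Cv k x),
  ∃ p' : Cv k' (up K' x), p.Up p' ∧
    ∀ (σ : Type) [Fintype σ] (s : σ → K), Free k x s → p'.dg (up K' s) = p.dg s

/-- **REDK**: a reduction of `K'` to `K` -/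
def REDK : Prop := ForB fun k k' K K' _ _ _ _ _ _ _ _ _ => ∀ (S : Set K') (S' : Set k')
  (α : Type) [Finite α] (A : α → Subalgebra k K) (g : α → K'), S.Finite → S'.Finite →
  (∀ a, g a ∈ ex k' K K' (A a)) → ∃ (w : Wp k k') (O : Subalgebra k K') (red : O →ₐ[k] K),
    S ⊆ O ∧ S' ⊆ w.W ∧ (∀ f, ∃ h, red ⟨algebraMap K K' f, h⟩ = f) ∧
    (∀ c : w.W, ∃ h, red ⟨algebraMap k' K' c, h⟩ = algebraMap k K (w.ρ c)) ∧
    ∀ a, g a ∈ Algebra.adjoin k (algebraMap K K' '' A a ∪ algebraMap k' K' '' w.W)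

/-- **USP**: free systems specialise -/
def USP : Prop := ForB fun k k' K K' _ _ _ _ _ _ _ _ _ => ∀ (ι σ : Type) [Fintype ι] [Fintype σ]
  (x : ι → K) (u' : σ → K') (c : ℕ), (∀ i, x i ≠ 0) → Free k' (up K' x) u' → ∃ u : σ → K,
    Free k x u ∧ (Eff k' (up K' x) ⟨σ, u', c⟩ → Eff k x ⟨σ, u, c⟩) ∧
      ∀ (p : Cv k x) (p' : Cv k' (up K' x)), p.Up p' → p'.dg u' = p.dg u

/-- **ABH**: the restriction of a divisorial place is trivial or divisorial -/
def ABH : Prop := ForB fun k k' K K' _ _ _ _ _ _ _ _ _ => ∀ (n : ℕ) (P' : Place K'), Dvl k' n P' →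
  (∀ f, algebraMap K K' f ∈ P'.ring) ∨ ∃ (P : Place K) (e : ℕ), 0 < e ∧ Dvl k n P ∧
    ∀ f, P'.ord (algebraMap K K' f) = e * P.ord f

/-- **GAU**: the Gauss extension of a divisorial place -/
def GAU : Prop := ForB fun k k' K K' _ _ _ _ _ _ _ _ _ => ∀ (n : ℕ) (P : Place K), Dvl k n P →
  ∃ P' : Place K', Dvl k' n P' ∧ (∀ f, P'.ord (algebraMap K K' f) = P.ord f) ∧
    ∀ D' : Derivation k' K' K', (∀ f ∈ P.ring, D' (algebraMap K K' f) ∈ P'.ring) →
      ∀ f ∈ P'.ring, D' f ∈ P'.ring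

/-- **KLB**: the klt condition does not depend on the ground field -/
def KLB : Prop := ForB fun k k' K K' _ _ _ _ _ _ _ _ _ => ∀ (ι : Type) [Fintype ι] [Nonempty ι]
  (x : ι → K) (n : ℕ) (y : Fin n → K) (δ : Fin n → Derivation k K K) (q : ℕ) (C : Cd K),
  (∀ i, x i ≠ 0) → Fr y δ → 0 < q → C.s ≠ 0 → (Klt k' (up K' x) (up K' y) q (C.up K') ↔ Klt k x y q C)

/-- **HYB**: the hypotheses do not depend on the ground field -/
def HYB : Prop := ForB fun k k' K K' _ _ _ _ _ _ _ _ _ => ∀ (ι : Type) [Fintype ι] [Nonempty ι]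
  (x : ι → K) (n : ℕ) (y : Fin n → K) (δ : Fin n → Derivation k K K)
  (δ' : Fin n → Derivation k' K' K') (q : ℕ) (C M : Cd K), Fr y δ → Fr (up K' y) δ' →
    (Hyp (up K' x) (up K' y) δ' q (C.up K') (M.up K') ↔ Hyp x y δ q C M)

/-- **COB**: the conclusion does not depend on the ground field -/
def COB : Prop := ForB fun k k' K K' _ _ _ _ _ _ _ _ _ => ∀ (ι : Type) [Fintype ι] (x : ι → K)
  (C M : Cd K), (∀ i, x i ≠ 0) → Free k x C.s → Free k x M.s →
    (Con k' (up K' x) (C.up K') (M.up K') ↔ Con k x C M)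

/-- **TRANS**: the Lefschetz principle for `FF` -/
def TRANS : Prop := ∀ n, FFn ℂ n → ∀ (k : Type) [Field k] [IsAlgClosed k] [CharZero k], FFn k n

end Vale.Agent.P270L
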